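import Vale.Agent.P231.H775.SmV

/-!
# P231, stage 1: joint smoothness of the logarithm, for plots
-/

set_option maxSynthPendingDepth 3
set_option linter.unusedSectionVars false
set_option linter.unusedVariables false

open Bundle Manifold Set Filter Module
open scoped ContDiff Manifold Topology

namespace Vale.Agent.P231.WD3

noncomputable section

open Vale.Agent.P234 Vale.Agent.P231 Vale.Agent.P231.H775

variable {E : Type*} [NormedAddCommGroup E] [NormedSpace ℝ E] [FiniteDimensional ℝ E]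
  {M : Type*} [MetricSpace M] [ChartedSpace E M] [IsManifold 𝓘(ℝ, E) ∞ M]
  [RiemannianBundle (fun x : M => TangentSpace 𝓘(ℝ, E) x)]
  [IsContMDiffRiemannianBundle 𝓘(ℝ, E) ∞ E (fun x : M => TangentSpace 𝓘(ℝ, E) x)]
  {e : ∀ x : M, TangentSpace 𝓘(ℝ, E) x → M}

/-- the Gram form in the chart at `x₀` -/
def gramB (x₀ x : M) : E →L[ℝ] E →L[ℝ] ℝ :=
  ((innerSL ℝ : TangentSpace 𝓘(ℝ, E) x →L[ℝ] TangentSpace 𝓘(ℝ, E) x →L[ℝ] ℝ).bilinearComp
    (vec x₀ x) (vec x₀ x))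

theorem gramB_apply (x₀ x : M) (a b : E) :
    gramB x₀ x a b = (inner ℝ (vec x₀ x a) (vec x₀ x b) : ℝ) := rfl

theorem gramB_injective {x₀ x : M} (hx : x ∈ (extChartAt 𝓘(ℝ, E) x₀).source) :
    Function.Injective (gramB (E := E) x₀ x) := by
  intro a b hab
  have h0 : gramB x₀ x (a - b) = 0 := by rw [map_sub, hab, sub_self]
  have h1 : gramB x₀ x (a - b) (a - b) = 0 := by rw [h0]; rfl
  rw [gramB_apply] at h1
  have h2 : vec x₀ x (a - b) = 0 := inner_self_eq_zero.1 h1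
  have h3 := crd_vec x₀ hx (a - b)
  rw [h2, map_zero] at h3
  exact (sub_eq_zero.1 h3.symm)

/-- the Gram form as an equivalence -/
def gramE {x₀ x : M} (hx : x ∈ (extChartAt 𝓘(ℝ, E) x₀).source) : E ≃L[ℝ] (E →L[ℝ] ℝ) :=
  (LinearEquiv.ofBijective (gramB (E := E) x₀ x).toLinearMap
    ⟨gramB_injective hx, (LinearMap.injective_iff_surjective_of_finrank_eq_finrank
      (f := (gramB (E := E) x₀ x).toLinearMap) (by
        rw [← LinearEquiv.finrank_eq (LinearMap.toContinuousLinearMap (𝕜 := ℝ) (E := E) (F' := ℝ))]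
        exact (Subspace.dual_finrank_eq).symm)).1
        (gramB_injective hx)⟩).toContinuousLinearEquiv

theorem coe_gramE {x₀ x : M} (hx : x ∈ (extChartAt 𝓘(ℝ, E) x₀).source) :
    (gramE hx : E →L[ℝ] (E →L[ℝ] ℝ)) = gramB x₀ x := rfl

theorem inverse_gramB {x₀ x : M} (hx : x ∈ (extChartAt 𝓘(ℝ, E) x₀).source)
    (v : TangentSpace 𝓘(ℝ, E) x) (L : E →L[ℝ] ℝ)
    (h : ∀ ξ, L ξ = (inner ℝ v (vec x₀ x ξ) : ℝ)) :
    (gramB x₀ x).inverse L = crd x₀ x v := by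
  have h1 : L = gramB x₀ x (crd x₀ x v) := by
    ext ξ
    rw [h, gramB_apply, vec_crd x₀ hx]
  rw [h1, ← coe_gramE hx, ContinuousLinearMap.inverse_equiv]
  simp

section Plot

variable {V : Type*} [NormedAddCommGroup V] [NormedSpace ℝ V]

theorem contDiffAt_clm_of_apply {F G : Type*} [NormedAddCommGroup F] [NormedSpace ℝ F]
    [NormedAddCommGroup G] [NormedSpace ℝ G] [FiniteDimensional ℝ F] {f : V → F →L[ℝ] G} {s : V}
    (h : ∀ y, ContDiffAt ℝ ∞ (fun x => f x y) s) : ContDiffAt ℝ ∞ f s := by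
  let d := finrank ℝ F
  have hd : d = finrank ℝ (Fin d → ℝ) := (finrank_fin_fun ℝ).symm
  let e₁ := ContinuousLinearEquiv.ofFinrankEq hd
  let e₂ := (e₁.arrowCongr (1 : G ≃L[ℝ] G)).trans (ContinuousLinearEquiv.piRing (Fin d))
  rw [← Function.id_comp f, ← e₂.symm_comp_self]
  exact e₂.symm.contDiff.contDiffAt.comp s (contDiffAt_pi.mpr fun i => h _)

theorem contDiffAt_gramB {f : V → M} {s : V} (x₀ : M)
    (hx : f s ∈ (extChartAt 𝓘(ℝ, E) x₀).source) (hf : ContMDiffAt 𝓘(ℝ, V) 𝓘(ℝ, E) ∞ f s) :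
    ContDiffAt ℝ ∞ (fun s => gramB (E := E) x₀ (f s)) s := by
  refine contDiffAt_clm_of_apply fun a => contDiffAt_clm_of_apply fun b => ?_
  exact (smV_vec x₀ hx hf contDiffAt_const).inner (smV_vec x₀ hx hf contDiffAt_const)

/-- the cost, in coordinates in the first variable, near zero -/
theorem contDiffAt_cost_plot (he : IsExp e) {a b : V → M} {s : V}
    (ha : ContMDiffAt 𝓘(ℝ, V) 𝓘(ℝ, E) ∞ a s) (hb : ContMDiffAt 𝓘(ℝ, V) 𝓘(ℝ, E) ∞ b s)
    (hs : SmoothAt E (a s) (b s)) (x₀ : M) (hx : a s ∈ (extChartAt 𝓘(ℝ, E) x₀).source) :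
    ContDiffAt ℝ ∞ (Function.uncurry fun (t : V) (ξ : E) =>
      cost (e (a t) (vec x₀ (a t) ξ)) (b t)) (s, 0) := by
  have ha' : ContMDiffAt 𝓘(ℝ, V × E) 𝓘(ℝ, E) ∞ (fun p : V × E => a p.1) (s, 0) :=
    ContMDiffAt.comp (s, (0 : E)) ha contDiffAt_fst.contMDiffAt
  have hb' : ContMDiffAt 𝓘(ℝ, V × E) 𝓘(ℝ, E) ∞ (fun p : V × E => b p.1) (s, 0) :=
    ContMDiffAt.comp (s, (0 : E)) hb contDiffAt_fst.contMDiffAt
  have h1 : SmV (fun p : V × E => a p.1) (fun p => vec x₀ (a p.1) p.2) (s, 0) :=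
    smV_vec (f := fun p : V × E => a p.1) (s := (s, (0 : E))) x₀ hx ha' contDiffAt_snd
  have h2 := h1.exp he
  have h3 := h2.prodMk hb'
  have h4 : ContMDiffAt (𝓘(ℝ, E).prod 𝓘(ℝ, E)) 𝓘(ℝ, ℝ) ∞ (fun p : M × M => cost p.1 p.2)
      (e (a s) (vec x₀ (a s) 0), b s) := by
    rw [map_zero, he.map_zero]
    exact hs.contMDiffAt
  exact (ContMDiffAt.comp (s, (0 : E)) h4 h3).contDiffAt

/-- the logarithm is jointly smooth -/
theorem smV_logMap (he : IsExp e) {a b : V → M} {s : V}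
    (ha : ContMDiffAt 𝓘(ℝ, V) 𝓘(ℝ, E) ∞ a s) (hb : ContMDiffAt 𝓘(ℝ, V) 𝓘(ℝ, E) ∞ b s)
    (hs : SmoothAt E (a s) (b s)) : SmV a (fun t => logMap e (a t) (b t)) s := by
  obtain ⟨x₀, hx⟩ : ∃ x₀, a s ∈ (extChartAt 𝓘(ℝ, E) x₀).source :=
    ⟨a s, mem_extChartAt_source (a s)⟩
  rw [smV_iff x₀ hx]
  refine ⟨ha, ?_⟩
  have h1 := contDiffAt_cost_plot he ha hb hs x₀ hx
  have h2 : ContDiffAt ℝ ∞ (fun t : V => fderiv ℝ (fun ξ : E =>
      cost (e (a t) (vec x₀ (a t) ξ)) (b t)) 0) s :=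
    ContDiffAt.fderiv (n := ∞) h1 contDiffAt_const (by simp)
  have : CompleteSpace E := FiniteDimensional.complete ℝ _
  have h3 : ContDiffAt ℝ ∞ (fun t => (gramB (E := E) x₀ (a t)).inverse) s := by
    have h4 : ContDiffAt ℝ ∞ ContinuousLinearMap.inverse (gramB (E := E) x₀ (a s)) := by
      rw [← coe_gramE hx]
      exact contDiffAt_map_inverse _
    exact h4.comp s (contDiffAt_gramB x₀ hx ha)
  have h5 := h3.clm_apply h2.neg
  refine h5.congr_of_eventuallyEq ?_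
  have h6 : ∀ᶠ t in 𝓝 s, SmoothAt E (a t) (b t) :=
    (ha.continuousAt.prodMk hb.continuousAt).eventually hs.eventually
  filter_upwards [h6, ha.continuousAt.eventually ((isOpen_extChartAt_source x₀).mem_nhds hx)]
    with t ht hxt
  symm
  refine inverse_gramB hxt _ _ fun ξ => ?_
  -- the chain rule
  have hd : DifferentiableAt ℝ (fun v : TangentSpace 𝓘(ℝ, E) (a t) => cost (e (a t) v) (b t))
      0 := by
    have g1 : ContMDiffAt (𝓘(ℝ, E).prod 𝓘(ℝ, E)) 𝓘(ℝ, ℝ) ∞ (fun p : M × M => cost p.1 p.2)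
        (e (a t) 0, b t) := by
      rw [he.map_zero]
      exact ht.contMDiffAt
    have g2 : ContMDiffAt 𝓘(ℝ, TangentSpace 𝓘(ℝ, E) (a t)) (𝓘(ℝ, E).prod 𝓘(ℝ, E)) ∞
        (fun v : TangentSpace 𝓘(ℝ, E) (a t) => (e (a t) v, b t)) 0 :=
      (contMDiff_exp_fiber he (a t)).contMDiffAt.prodMk contMDiffAt_const
    exact (ContMDiffAt.comp (0 : TangentSpace 𝓘(ℝ, E) (a t)) g1
      g2).contDiffAt.differentiableAt (by simp)
  have hc : fderiv ℝ (fun ξ : E => cost (e (a t) (vec x₀ (a t) ξ)) (b t)) 0 =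
      (fderiv ℝ (fun v : TangentSpace 𝓘(ℝ, E) (a t) => cost (e (a t) v) (b t)) 0).comp
        (vec x₀ (a t)) := by
    have g3 := hd.hasFDerivAt
    rw [← map_zero (vec x₀ (a t))] at g3
    have g4 := (g3.comp (0 : E) (vec x₀ (a t)).hasFDerivAt).fderiv
    rw [map_zero (vec x₀ (a t))] at g4
    exact g4
  have hcξ : -(fderiv ℝ (fun ξ : E => cost (e (a t) (vec x₀ (a t) ξ)) (b t)) 0) ξ =
      -(fderiv ℝ (fun v : TangentSpace 𝓘(ℝ, E) (a t) => cost (e (a t) v) (b t)) 0)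
        (vec x₀ (a t) ξ) := by rw [hc]; rfl
  refine hcξ.trans ?_
  unfold logMap
  rw [InnerProductSpace.toDual_symm_apply]
  rfl

end Plot

end

end Vale.Agent.P231.WD3
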