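import Vale.Agent.P231.W.Defs
import Vale.Agent.P231.H766.Uec2
import Vale.Agent.P231.WD.SmLog

/-!
# P231, stage 1: smooth interpolation along the minimal geodesics of the manifold

`geoM F hB : Geo (dM E M) D`, with `G x y r = exp_x (r log_x y)`.
-/

set_option maxSynthPendingDepth 3
set_option linter.unusedSectionVars false
set_option linter.unusedVariables false

open Bundle Manifold Set Filter Module
open scoped ContDiff Manifold Topology

namespace Vale.Agent.P231.WD3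

noncomputable section

open Vale.Agent.P234 Vale.Agent.P231 Vale.Agent.P231.H775 Vale.Agent.P231.Fm Vale.Agent.P231.W
open Vale.Agent.P231.H766

variable {E : Type*} [NormedAddCommGroup E] [NormedSpace ℝ E] [FiniteDimensional ℝ E]
  {M : Type*} [MetricSpace M] [ChartedSpace E M] [IsManifold 𝓘(ℝ, E) ∞ M]
  [RiemannianBundle (fun x : M => TangentSpace 𝓘(ℝ, E) x)]
  [IsContMDiffRiemannianBundle 𝓘(ℝ, E) ∞ E (fun x : M => TangentSpace 𝓘(ℝ, E) x)]
  {e : ∀ x : M, TangentSpace 𝓘(ℝ, E) x → M}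

/-- the logarithm, as a raw vector -/
def lm (e : ∀ x : M, TangentSpace 𝓘(ℝ, E) x → M) (x y : M) : E := logMap e x y

theorem smoothAt_of_dist_lt (F : Facts e) {D : ℝ} (hB : InjGE e D) {x y : M} (h : dist x y < D) :
    SmoothAt E x y := by
  obtain ⟨v, hv, hd⟩ := F.hopfRinow x y
  rw [← hv]
  exact F.smooth_cost x v (hB.mem_injDomain (by rw [← hd]; exact h))

theorem lm_eq (F : Facts e) {D : ℝ} (hB : InjGE e D) {x : M} {v : E} (hv : nm x v < D) :
    lm e x (e x v) = v := by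
  have h3 : (v : TangentSpace 𝓘(ℝ, E) x) ∈ injDomain e x := hB.mem_injDomain hv
  exact logMap_eq F.isExp (injDomain_subset_segMin F.isExp x h3) (F.smooth_cost x v h3)

theorem lm_eq_lg (F : Facts e) {D : ℝ} (hB : InjGE e D) {x y : M} (h : dist x y < D) :
    lm e x y = lg e x y := by
  obtain ⟨h1, h2⟩ := lg_spec F x y
  have h3 := lm_eq F hB (x := x) (v := lg e x y) (by rw [h1]; exact h)
  rw [h2] at h3
  exact h3

theorem nm_lm (F : Facts e) {D : ℝ} (hB : InjGE e D) {x y : M} (h : dist x y < D) :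
    nm x (lm e x y) = dist x y := by
  rw [lm_eq_lg F hB h]
  exact (lg_spec F x y).1

theorem exp_lm (F : Facts e) {D : ℝ} (hB : InjGE e D) {x y : M} (h : dist x y < D) :
    e x (lm e x y : E) = y := by
  rw [lm_eq_lg F hB h]
  exact (lg_spec F x y).2

theorem lm_self (F : Facts e) {D : ℝ} (hD : 0 < D) (hB : InjGE e D) (x : M) :
    lm e x x = 0 := by
  have h1 : nm (E := E) x 0 < D := by
    rw [show nm (E := E) x 0 = 0 from norm_zero (E := TangentSpace 𝓘(ℝ, E) x)]
    exact hD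
  have h2 := lm_eq F hB h1
  have h3 : e x (0 : TangentSpace 𝓘(ℝ, E) x) = x := F.isExp.map_zero x
  rw [show e x (0 : E) = x from h3] at h2
  exact h2

theorem lm_mem_segMin (F : Facts e) {D : ℝ} (hB : InjGE e D) {x y : M} (h : dist x y < D) :
    ((lm e x y : E) : TangentSpace 𝓘(ℝ, E) x) ∈ segMin e x := by
  change dist x (e x (lm e x y : E)) = nm x (lm e x y)
  rw [exp_lm F hB h, nm_lm F hB h]

theorem lm_swap (F : Facts e) {D : ℝ} (hB : InjGE e D) {x y : M} (h : dist x y < D) :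
    lm e y x = -vel e x (lm e x y) 1 := by
  rw [lm_eq_lg F hB h, lm_eq_lg F hB (by rw [dist_comm]; exact h)]
  exact lg_swap F hB h

theorem smV_lm (F : Facts e) {D : ℝ} (hB : InjGE e D) {V : Type*} [NormedAddCommGroup V]
    [NormedSpace ℝ V] {a b : V → M} {s : V} (ha : ContMDiffAt 𝓘(ℝ, V) 𝓘(ℝ, E) ∞ a s)
    (hb : ContMDiffAt 𝓘(ℝ, V) 𝓘(ℝ, E) ∞ b s) (h : dist (a s) (b s) < D) :
    SmV a (fun t => (lm e (a t) (b t) : E)) s :=
  smV_logMap F.isExp ha hb (smoothAt_of_dist_lt F hB h)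

/-- the interpolation along minimal geodesics -/
def gG (e : ∀ x : M, TangentSpace 𝓘(ℝ, E) x → M) (x y : M) (r : ℝ) : M := gam e x (lm e x y) r

theorem gG_eq (x y : M) (r : ℝ) : gG e x y r = e x (r • lm e x y : E) := rfl

theorem contMDiffAt_gG (F : Facts e) {D : ℝ} (hB : InjGE e D) {V : Type*} [NormedAddCommGroup V]
    [NormedSpace ℝ V] {a b : V → M} {r : V → ℝ} {s : V} (ha : ContMDiffAt 𝓘(ℝ, V) 𝓘(ℝ, E) ∞ a s)
    (hb : ContMDiffAt 𝓘(ℝ, V) 𝓘(ℝ, E) ∞ b s) (hr : ContDiffAt ℝ ∞ r s)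
    (h : dist (a s) (b s) < D) :
    ContMDiffAt 𝓘(ℝ, V) 𝓘(ℝ, E) ∞ (fun t => gG e (a t) (b t) (r t)) s :=
  ((smV_lm F hB ha hb h).smul hr).exp F.isExp

theorem gG_zero (F : Facts e) (x y : M) : gG e x y 0 = x := gam_zero F.isExp _ _

theorem gG_one (F : Facts e) {D : ℝ} (hB : InjGE e D) {x y : M} (h : dist x y < D) :
    gG e x y 1 = y := (log_gam_one x _).trans (exp_lm F hB h)

theorem gG_exp (F : Facts e) {D : ℝ} (hB : InjGE e D) {x : M} {u : E} (hu : nm x u < D)
    (r : ℝ) : gG e x (e x u) r = e x (r • u : E) := by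
  rw [gG_eq, lm_eq F hB hu]

theorem dist_gG_gG (F : Facts e) {D : ℝ} (hB : InjGE e D) {x y : M} (h : dist x y < D) {s t : ℝ}
    (hs : s ∈ Icc (0 : ℝ) 1) (ht : t ∈ Icc (0 : ℝ) 1) :
    dist (gG e x y s) (gG e x y t) = |s - t| * dist x y := by
  have h2 : nm x (lm e x y) = dist x y := nm_lm F hB h
  have key : ∀ s t : ℝ, 0 ≤ s → s ≤ t → t ≤ 1 →
      dist (gG e x y s) (gG e x y t) = (t - s) * nm x (lm e x y) := fun s t hs hst ht =>
    segMin_dist F.isExp (lm_mem_segMin F hB h) hs hst ht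
  rw [← h2]
  rcases le_total s t with hst | hst
  · rw [key s t hs.1 hst ht.2, abs_of_nonpos (by linarith only [hst])]
    ring
  · rw [dist_comm, key t s ht.1 hst hs.2, abs_of_nonneg (by linarith only [hst])]

theorem dist_gG_left (F : Facts e) {D : ℝ} (hB : InjGE e D) {x y : M} (h : dist x y < D) {r : ℝ}
    (hr : r ∈ Icc (0 : ℝ) 1) : dist x (gG e x y r) = r * dist x y := by
  have h1 := dist_gG_gG F hB h ⟨le_rfl, zero_le_one⟩ hr
  rw [gG_zero F, zero_sub, abs_neg, abs_of_nonneg hr.1] at h1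
  exact h1

theorem dist_gG_right (F : Facts e) {D : ℝ} (hB : InjGE e D) {x y : M} (h : dist x y < D) {r : ℝ}
    (hr : r ∈ Icc (0 : ℝ) 1) : dist (gG e x y r) y = (1 - r) * dist x y := by
  have h1 := dist_gG_gG F hB h hr ⟨zero_le_one, le_rfl⟩
  rw [gG_one F hB h, abs_of_nonpos (by linarith only [hr.2])] at h1
  rw [h1]
  ring

theorem gG_self (F : Facts e) {D : ℝ} (hD : 0 < D) (hB : InjGE e D) (x : M) (r : ℝ) :
    gG e x x r = x := by
  rw [gG_eq, lm_self F hD hB, smul_zero]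
  exact F.isExp.map_zero x

/-- the interpolation, backwards -/
theorem gG_swap (F : Facts e) {D : ℝ} (hB : InjGE e D) {x y : M} (h : dist x y < D) (r : ℝ) :
    gG e y x r = gG e x y (1 - r) := by
  have h1 := gam_flow F x (lm e x y) 1 (-r)
  rw [← sub_eq_add_neg] at h1
  have h2 : gam e x (lm e x y) 1 = y := gG_one F hB h
  rw [h2] at h1
  have h3 := gam_smul (e := e) y (vel e x (lm e x y) 1) (-1) r
  have h4 : ((-1 : ℝ) • vel e x (lm e x y) 1 : E) = lm e y x := by
    rw [lm_swap F hB h]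
    exact neg_one_smul ℝ _
  rw [h4, neg_one_mul] at h3
  exact h3.trans h1

/-- the interpolation between two points of a unit speed geodesic -/
theorem gG_gam (F : Facts e) {D : ℝ} (hB : InjGE e D) {x : M} {u : E} (hu : nm x u = 1)
    {s t : ℝ} (hst : |t - s| < D) (r : ℝ) :
    gG e (gam e x u s) (gam e x u t) r = gam e x u (s + r * (t - s)) := by
  have h1 := gam_flow F x u s (t - s)
  rw [add_sub_cancel] at h1
  have h2 : nm (gam e x u s) ((t - s) • vel e x u s) < D := by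
    rw [nm_smul, nm_vel F, hu, mul_one]
    exact hst
  have h3 := gG_exp F hB h2 r
  have h4 : e (gam e x u s) ((t - s) • vel e x u s : E) = gam e x u t := h1
  rw [h4] at h3
  rw [h3, ← gam_flow F x u s (r * (t - s))]
  exact congrArg (e (gam e x u s)) (smul_smul r (t - s) (vel e x u s))

/-- a point of the minimal geodesic from `x` to a point of a geodesic starting at `x` -/
theorem gG_foot_gam (F : Facts e) {D : ℝ} (hB : InjGE e D) {x : M} {u : E} (hu : nm x u = 1)
    {t : ℝ} (ht : |t| < D) (r : ℝ) : gG e x (gam e x u t) r = gam e x u (r * t) := by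
  have h1 := gG_gam F hB hu (s := 0) (t := t) (by rwa [sub_zero]) r
  rw [gam_zero F.isExp, zero_add, sub_zero] at h1
  exact h1

/-! ### the interpolation structure -/

theorem At_gG (F : Facts e) {D : ℝ} (hB : InjGE e D) {V : Type} [NormedAddCommGroup V]
    [NormedSpace ℝ V] [FiniteDimensional ℝ V] {a b : V → M} {r : V → ℝ} {s : V}
    (ha : (dM E M).At a s) (hb : (dM E M).At b s) (hr : Sm r s) (h : dist (a s) (b s) < D) :
    (dM E M).At (fun t => gG e (a t) (b t) (r t)) s := by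
  have ha' : ∀ᶠ y in 𝓝 s, ContMDiffAt 𝓘(ℝ, V) 𝓘(ℝ, E) ∞ a y := ha
  have hb' : ∀ᶠ y in 𝓝 s, ContMDiffAt 𝓘(ℝ, V) 𝓘(ℝ, E) ∞ b y := hb
  have h1 : ∀ᶠ y in 𝓝 s, dist (a y) (b y) < D :=
    (ha'.self_of_nhds.continuousAt.dist hb'.self_of_nhds.continuousAt).eventually
      (gt_mem_nhds h)
  have h2 : ∀ᶠ y in 𝓝 s, ContMDiffAt 𝓘(ℝ, V) 𝓘(ℝ, E) ∞
      (fun t => gG e (a t) (b t) (r t)) y := by
    filter_upwards [ha', hb', hr, h1] with y hay hby hry hy
    exact contMDiffAt_gG F hB hay hby hry hy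
  exact h2

/-- the interpolation structure of the manifold -/
def geoM (F : Facts e) {D : ℝ} (hB : InjGE e D) : Geo (dM E M) D where
  G := gG e
  cont {V} _ _ _ {u x} hu := by
    have hu' : ∀ᶠ y in 𝓝 x, ContMDiffAt 𝓘(ℝ, V) 𝓘(ℝ, E) ∞ u y := hu
    exact hu'.self_of_nhds.continuousAt
  smooth {V} _ _ _ {a b s x} ha hb hs h := At_gG F hB ha hb hs h
  zero a b _ := gG_zero F a b
  one a b h := gG_one F hB h
  lip a b h s hs t ht := (dist_gG_gG F hB h hs ht).le

theorem geoM_G (F : Facts e) {D : ℝ} (hB : InjGE e D) : (geoM F hB).G = gG e := rfl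

theorem geoM_apply (F : Facts e) {D : ℝ} (hB : InjGE e D) (x y : M) (r : ℝ) :
    (geoM F hB).G x y r = e x (r • logMap e x y) := rfl

/-- the interpolation of two maps at distance less than `D` is smooth -/
theorem map_gG (F : Facts e) {D : ℝ} (hB : InjGE e D) {X : Type*} {DX : Dif X} {a b : X → M}
    (ha : DX.Map (dM E M) a) (hb : DX.Map (dM E M) b) (h : ∀ x, dist (a x) (b x) < D) :
    (DX.prod (Dif.lin ℝ)).Map (dM E M) (fun p => gG e (a p.1) (b p.1) p.2) :=
  fun {V} _ _ _ {u s} hu => At_gG F hB (ha hu.1) (hb hu.1) hu.2 (h _)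

/-- the same, with a smooth parameter -/
theorem map_gG' (F : Facts e) {D : ℝ} (hB : InjGE e D) {X : Type*} {DX : Dif X} {a b : X → M}
    {r : X → ℝ} (ha : DX.Map (dM E M) a) (hb : DX.Map (dM E M) b) (hr : DX.Map (Dif.lin ℝ) r)
    (h : ∀ x, dist (a x) (b x) < D) :
    DX.Map (dM E M) (fun p => gG e (a p) (b p) (r p)) :=
  fun {V} _ _ _ {u s} hu => At_gG F hB (ha hu) (hb hu) (hr hu) (h _)

end

end Vale.Agent.P231.WD3
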