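import Vale.Agent.P231.H703.Link

/-! P231, block D2: first variation at a cut pair.  For `dist x y = D` the map which sends the
departure direction at `x` of a minimal geodesic from `x` to `y` to its arrival velocity at `y` is
(the restriction of) a linear isometry `Tt : Pl e D y x → Pl e D x y`, and
`dist (exp_x ξ) (exp_y ζ) ≤ D - ‖pr ξ - Tt⁻¹ (pr ζ)‖ + C (‖ξ‖² + ‖ζ‖²)` for small `ξ`, `ζ`. -/

set_option maxSynthPendingDepth 3
set_option linter.unusedSectionVars false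

open Bundle Manifold Set Filter Module
open scoped ContDiff Manifold Topology

namespace Vale.Agent.P231.WD2

noncomputable section

open Vale.Agent.P234 Vale.Agent.P231 Vale.Agent.P231.H703

variable {E : Type*} [NormedAddCommGroup E] [NormedSpace ℝ E]
  {M : Type*} [MetricSpace M] [ChartedSpace E M]
  [RiemannianBundle (fun x : M => TangentSpace 𝓘(ℝ, E) x)]
  {e : ∀ x : M, TangentSpace 𝓘(ℝ, E) x → M}
  [FiniteDimensional ℝ E] [IsManifold 𝓘(ℝ, E) ∞ M]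
  [IsContMDiffRiemannianBundle 𝓘(ℝ, E) ∞ E (fun x : M => TangentSpace 𝓘(ℝ, E) x)]

/-- local form of the first variation inequality for the cost, uniform in the direction -/
theorem cost_local (F : Facts e) {D : ℝ} (hD : 0 < D) (hB : InjGE e D) (x : M)
    (u₀ : TangentSpace 𝓘(ℝ, E) x) (hu₀ : ‖u₀‖ = 1) :
    ∃ K : ℝ, 0 ≤ K ∧ ∃ δ : ℝ, 0 < δ ∧ ∀ u ξ : TangentSpace 𝓘(ℝ, E) x, ‖u - u₀‖ < δ → ‖ξ‖ < δ →
      ‖u‖ = 1 → cost (e x ξ) (e x ((D / 2) • u)) ≤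
        (D / 2) ^ 2 / 2 - (D / 2) * inner ℝ u ξ + K * ‖ξ‖ ^ 2 := by
  have hn : ∀ u : TangentSpace 𝓘(ℝ, E) x, ‖u‖ = 1 → ‖(D / 2) • u‖ = D / 2 := fun u hu => by
    rw [norm_smul, hu, mul_one, Real.norm_of_nonneg (by positivity)]
  have hmem : ∀ u : TangentSpace 𝓘(ℝ, E) x, ‖u‖ = 1 → (D / 2) • u ∈ injDomain e x := fun u hu =>
    hB.mem_injDomain (by rw [hn u hu]; linarith only [hD])
  have hs : ∀ u : TangentSpace 𝓘(ℝ, E) x, ‖u‖ = 1 → SmoothAt E x (e x ((D / 2) • u)) :=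
    fun u hu => F.smooth_cost x _ (hmem u hu)
  set g : TangentSpace 𝓘(ℝ, E) x × TangentSpace 𝓘(ℝ, E) x → ℝ :=
    fun p => cost (e x p.1) (e x p.2) with hg
  have hG : ContDiffAt ℝ ∞ g (0, (D / 2) • u₀) := coord0 F.isExp (hs u₀ hu₀)
  have hG2 : ContDiffAt ℝ 2 g (0, (D / 2) • u₀) := hG.of_le two_le_infty
  obtain ⟨δ, hδ, hT⟩ := taylor2 hG2 (ε := 1) one_pos
  set H := hess g (0, (D / 2) • u₀) with hH
  have hdiff : ∀ᶠ p in 𝓝 ((0 : TangentSpace 𝓘(ℝ, E) x), (D / 2) • u₀), DifferentiableAt ℝ g p :=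
    eventually_differentiableAt hG2
  obtain ⟨δ₂, hδ₂, hd2⟩ := Metric.eventually_nhds_iff.1 hdiff
  refine ⟨1 / 2 * ‖H‖ + 1, by positivity, min (min δ (δ₂)) (min (δ / (D / 2)) (δ₂ / (D / 2))),
    by positivity, ?_⟩
  intro u ξ hu hξ hu1
  have hu' : ‖(D / 2) • u - (D / 2) • u₀‖ < min δ δ₂ := by
    rw [← smul_sub, norm_smul, Real.norm_of_nonneg (by positivity : (0 : ℝ) ≤ D / 2)]
    have h1 : ‖u - u₀‖ < min (δ / (D / 2)) (δ₂ / (D / 2)) := hu.trans_le (min_le_right _ _)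
    have h2 : ‖u - u₀‖ < δ / (D / 2) := h1.trans_le (min_le_left _ _)
    have h3 : ‖u - u₀‖ < δ₂ / (D / 2) := h1.trans_le (min_le_right _ _)
    rw [lt_div_iff₀ (by positivity)] at h2 h3
    exact lt_min (by linarith) (by linarith)
  have hξ' : ‖ξ‖ < δ := hξ.trans_le ((min_le_left _ _).trans (min_le_left _ _))
  have hp : ‖((0 : TangentSpace 𝓘(ℝ, E) x), (D / 2) • u) - (0, (D / 2) • u₀)‖ < min δ δ₂ := by
    rw [Prod.mk_sub_mk, sub_zero, Prod.norm_def]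
    exact max_lt (by rw [norm_zero]; positivity) hu'
  have h0 := hT (0, (D / 2) • u) (ξ, 0) (hp.trans_le (min_le_left _ _)) (by
    rw [Prod.norm_def, norm_zero]
    exact max_lt hξ' hδ)
  have hnorm : ‖((ξ, 0) : TangentSpace 𝓘(ℝ, E) x × TangentSpace 𝓘(ℝ, E) x)‖ = ‖ξ‖ := by
    rw [Prod.norm_def, norm_zero]
    exact max_eq_left (norm_nonneg _)
  rw [hnorm, Prod.mk_add_mk, zero_add, add_zero] at h0
  have hgd : DifferentiableAt ℝ g (0, (D / 2) • u) :=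
    hd2 (by rw [dist_eq_norm]; exact hp.trans_le (min_le_right _ _))
  have hfd : fderiv ℝ g (0, (D / 2) • u) (ξ, 0) = -((D / 2) * inner ℝ u ξ) := by
    have h1 := hasFDerivAt_cost_zero F.isExp x ((D / 2) • u)
      (injDomain_subset_segMin F.isExp x (hmem u hu1)) (hs u hu1)
    have h2 : HasFDerivAt (fun a : TangentSpace 𝓘(ℝ, E) x => g (a, (D / 2) • u))
        ((fderiv ℝ g (0, (D / 2) • u)).comp (ContinuousLinearMap.inl ℝ _ _)) 0 := by
      have h3 : HasFDerivAt (fun a : TangentSpace 𝓘(ℝ, E) x => (a, (D / 2) • u))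
          (ContinuousLinearMap.inl ℝ (TangentSpace 𝓘(ℝ, E) x) (TangentSpace 𝓘(ℝ, E) x)) 0 :=
        hasFDerivAt_prodMk_left _ _
      exact HasFDerivAt.comp (0 : TangentSpace 𝓘(ℝ, E) x) hgd.hasFDerivAt h3
    have h4 := h2.unique h1
    have h5 := congrArg (fun L => L ξ) h4
    simp only [ContinuousLinearMap.comp_apply, ContinuousLinearMap.inl_apply] at h5
    rw [h5]
    simp
  rw [hfd] at h0
  have h6 : g (0, (D / 2) • u) = (D / 2) ^ 2 / 2 := by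
    have h7 : dist x (e x ((D / 2) • u)) = D / 2 := by
      rw [hB x _ (by rw [hn u hu1]; linarith only [hD]), hn u hu1]
    rw [hg]
    simp only
    rw [F.isExp.map_zero]
    unfold cost
    rw [h7]
  rw [h6] at h0
  have h8 : |H (ξ, 0) (ξ, 0)| ≤ ‖H‖ * ‖ξ‖ ^ 2 := by
    have := H.le_opNorm₂ (ξ, 0) (ξ, 0)
    rw [hnorm, Real.norm_eq_abs] at this
    linarith [this, sq ‖ξ‖, mul_assoc ‖H‖ ‖ξ‖ ‖ξ‖]
  have h9 := (abs_le.1 h0).2
  have h10 := (abs_le.1 h8).2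
  have h11 : g (ξ, (D / 2) • u) = cost (e x ξ) (e x ((D / 2) • u)) := rfl
  rw [h11] at h9
  nlinarith [h9, h10]

/-- uniform form on the unit sphere -/
theorem cost_unif (F : Facts e) {D : ℝ} (hD : 0 < D) (hB : InjGE e D) (x : M) :
    ∃ K : ℝ, 0 ≤ K ∧ ∃ δ : ℝ, 0 < δ ∧ ∀ u ξ : TangentSpace 𝓘(ℝ, E) x, ‖ξ‖ < δ →
      ‖u‖ = 1 → cost (e x ξ) (e x ((D / 2) • u)) ≤
        (D / 2) ^ 2 / 2 - (D / 2) * inner ℝ u ξ + K * ‖ξ‖ ^ 2 := by
  have hfd : FiniteDimensional ℝ (TangentSpace 𝓘(ℝ, E) x) := finDimTS x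
  have hpr : ProperSpace (TangentSpace 𝓘(ℝ, E) x) :=
    FiniteDimensional.proper ℝ (TangentSpace 𝓘(ℝ, E) x)
  have hc : IsCompact (Metric.sphere (0 : TangentSpace 𝓘(ℝ, E) x) 1) := isCompact_sphere _ _
  have key : ∃ K : ℝ, 0 ≤ K ∧ ∃ δ : ℝ, 0 < δ ∧ ∀ u ∈ Metric.sphere (0 : TangentSpace 𝓘(ℝ, E) x) 1,
      ∀ ξ : TangentSpace 𝓘(ℝ, E) x, ‖ξ‖ < δ →
      ‖u‖ = 1 → cost (e x ξ) (e x ((D / 2) • u)) ≤
        (D / 2) ^ 2 / 2 - (D / 2) * inner ℝ u ξ + K * ‖ξ‖ ^ 2 := by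
    refine hc.induction_on (p := fun S : Set (TangentSpace 𝓘(ℝ, E) x) =>
      ∃ K : ℝ, 0 ≤ K ∧ ∃ δ : ℝ, 0 < δ ∧ ∀ u ∈ S,
      ∀ ξ : TangentSpace 𝓘(ℝ, E) x, ‖ξ‖ < δ →
      ‖u‖ = 1 → cost (e x ξ) (e x ((D / 2) • u)) ≤
        (D / 2) ^ 2 / 2 - (D / 2) * inner ℝ u ξ + K * ‖ξ‖ ^ 2) ?_ ?_ ?_ ?_
    · exact ⟨0, le_rfl, 1, one_pos, fun u hu => absurd hu (Set.notMem_empty u)⟩
    · rintro s t hst ⟨K, hK, δ, hδ, h⟩
      exact ⟨K, hK, δ, hδ, fun u hu => h u (hst hu)⟩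
    · rintro s t ⟨K, hK, δ, hδ, h⟩ ⟨K', hK', δ', hδ', h'⟩
      refine ⟨max K K', le_max_of_le_left hK, min δ δ', by positivity, ?_⟩
      intro u hu ξ hξ hu1
      have hq : 0 ≤ ‖ξ‖ ^ 2 := by positivity
      rcases hu with hu | hu
      · have := h u hu ξ (hξ.trans_le (min_le_left _ _)) hu1
        have h3 := mul_le_mul_of_nonneg_right (le_max_left K K') hq
        linarith
      · have := h' u hu ξ (hξ.trans_le (min_le_right _ _)) hu1
        have h3 := mul_le_mul_of_nonneg_right (le_max_right K K') hq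
        linarith
    · intro u₀ hu₀
      obtain ⟨K, hK, δ, hδ, h⟩ := cost_local F hD hB x u₀ (by simpa using hu₀)
      refine ⟨Metric.ball u₀ δ, mem_nhdsWithin_of_mem_nhds (Metric.ball_mem_nhds _ hδ), K, hK, δ, hδ,
        ?_⟩
      intro u hu ξ hξ hu1
      exact h u ξ (by rw [← dist_eq_norm]; exact hu) hξ hu1
  obtain ⟨K, hK, δ, hδ, h⟩ := key
  exact ⟨K, hK, δ, hδ, fun u ξ hξ hu => h u (by simpa using hu) ξ hξ hu⟩

/-- **First variation inequality** for the distance to the point `exp_x ((D/2) u)`. -/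
theorem dist_unif (F : Facts e) {D : ℝ} (hD : 0 < D) (hB : InjGE e D) (x : M) :
    ∃ C : ℝ, 0 ≤ C ∧ ∃ δ : ℝ, 0 < δ ∧ ∀ u ξ : TangentSpace 𝓘(ℝ, E) x, ‖ξ‖ ≤ δ →
      ‖u‖ = 1 → dist (e x ξ) (e x ((D / 2) • u)) ≤ D / 2 - inner ℝ u ξ + C * ‖ξ‖ ^ 2 := by
  obtain ⟨K, hK, δ, hδ, h⟩ := cost_unif F hD hB x
  refine ⟨2 * K / D, by positivity, min (δ / 2) (D / 2), by positivity, ?_⟩
  intro u ξ hξ hu
  have h1 := h u ξ (lt_of_le_of_lt (hξ.trans (min_le_left _ _)) (by linarith)) hu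
  have h2 : ‖ξ‖ ≤ D / 2 := hξ.trans (min_le_right _ _)
  have h3 : |(inner ℝ u ξ : ℝ)| ≤ ‖ξ‖ := by
    have := abs_real_inner_le_norm u ξ
    rwa [hu, one_mul] at this
  have h4 := (abs_le.1 h3).2
  have hC : 0 ≤ 2 * K / D * ‖ξ‖ ^ 2 := by positivity
  refine abs_le_of_sq_le_sq' ?_ (by linarith) |>.2
  unfold cost at h1
  have h5 : 2 * K / D * ‖ξ‖ ^ 2 * D = 2 * K * ‖ξ‖ ^ 2 := by field_simp
  nlinarith [h1, h5, sq_nonneg (-(inner ℝ u ξ : ℝ) + 2 * K / D * ‖ξ‖ ^ 2)]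

/-- scalar lemma: a quadratic lower bound of a linear function near zero forces it to vanish -/
theorem eq_zero_of_quad {a C δ : ℝ} (hδ : 0 < δ)
    (h : ∀ s : ℝ, |s| ≤ δ → 0 ≤ s * a + C * s ^ 2) : a = 0 := by
  by_contra ha
  have ha' : 0 < |a| := abs_pos.2 ha
  -- take `s = - sign a * t` for small `t`
  set t : ℝ := min δ (|a| / (2 * (|C| + 1))) with ht
  have ht0 : 0 < t := by positivity
  have htδ : t ≤ δ := min_le_left _ _
  have ht2 : t * (2 * (|C| + 1)) ≤ |a| := by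
    have := min_le_right δ (|a| / (2 * (|C| + 1)))
    rw [← ht] at this
    rwa [le_div_iff₀ (by positivity)] at this
  have hC : C ≤ |C| := le_abs_self C
  rcases lt_or_gt_of_ne ha with h1 | h1
  · have h2 := h t (by rwa [abs_of_pos ht0])
    rw [abs_of_neg h1] at ht2
    nlinarith [h2, ht2, mul_le_mul_of_nonneg_left hC (by positivity : 0 ≤ t ^ 2), ht0,
      mul_pos ht0 ht0]
  · have h2 := h (-t) (by rwa [abs_neg, abs_of_pos ht0])
    rw [abs_of_pos h1] at ht2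
    nlinarith [h2, ht2, mul_le_mul_of_nonneg_left hC (by positivity : 0 ≤ t ^ 2), ht0,
      mul_pos ht0 ht0]

/-- `b` is the opposite of the arrival velocity at `y` of the geodesic with initial direction `u`
at `x`. -/
def Rev (e : ∀ x : M, TangentSpace 𝓘(ℝ, E) x → M) (D : ℝ) {x y : M}
    (u : TangentSpace 𝓘(ℝ, E) x) (b : TangentSpace 𝓘(ℝ, E) y) : Prop :=
  ‖b‖ = 1 ∧ ∀ s : ℝ, e x (s • u) = e y ((D - s) • b)

theorem Rev.exists (F : Facts e) {D : ℝ} {x y : M} {u : TangentSpace 𝓘(ℝ, E) x}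
    (hu : u ∈ Lk e D y x) : ∃ b ∈ Lk e D x y, Rev e D u b := by
  obtain ⟨b, hb, h⟩ := link_of_dir F hu.1 hu.2
  exact ⟨b, hb, hb.1, h⟩

theorem Rev.mem_Lk (F : Facts e) {D : ℝ} {x y : M} {u : TangentSpace 𝓘(ℝ, E) x}
    {b : TangentSpace 𝓘(ℝ, E) y} (h : Rev e D u b) : b ∈ Lk e D x y := by
  refine ⟨h.1, ?_⟩
  have := h.2 0
  rw [zero_smul, F.isExp.map_zero, sub_zero] at this
  exact this.symm

variable [CompactSpace M] [ConnectedSpace M] [IsRiemannianManifold 𝓘(ℝ, E) M]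

theorem Rev.unique (F : Facts e) {D : ℝ} (hD : 0 < D) (hB : InjGE e D) {x y : M}
    {u : TangentSpace 𝓘(ℝ, E) x} {b b' : TangentSpace 𝓘(ℝ, E) y} (h : Rev e D u b)
    (h' : Rev e D u b') : b = b' := by
  have hn : ∀ c : TangentSpace 𝓘(ℝ, E) y, ‖c‖ = 1 → ‖(D / 2) • c‖ < D := fun c hc => by
    rw [norm_smul, hc, mul_one, Real.norm_of_nonneg (by positivity)]
    linarith only [hD]
  have h1 : e y ((D / 2) • b) = e y ((D / 2) • b') := by
    have h2 := h.2 (D / 2)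
    have h3 := h'.2 (D / 2)
    have h4 : D - D / 2 = D / 2 := by ring
    rw [h4] at h2 h3
    rw [← h2, h3]
  have h5 := F.injDomain_unique (hB.mem_injDomain (hn b h.1))
    (injDomain_subset_segMin F.isExp y (hB.mem_injDomain (hn b' h'.1))) h1.symm
  exact (smul_right_injective _ (by positivity : D / 2 ≠ 0) h5).symm

/-- the point at parameter `s + D` is at distance `D` from the one at parameter `s` -/
theorem dist_shift (F : Facts e) {D : ℝ} (hD : 0 < D) (hB : InjGE e D) {x : M}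
    {u : TangentSpace 𝓘(ℝ, E) x} (hu : ‖u‖ = 1) (s : ℝ) :
    dist (e x (s • u)) (e x ((s + D) • u)) = D := by
  obtain ⟨w, hw, h⟩ := F.flow x u s
  rw [← h D]
  have h1 : ‖D • w‖ = D := by
    rw [norm_smul, hw, hu, mul_one, Real.norm_of_nonneg hD.le]
  rw [hB _ (D • w) h1.le, h1]

/-- first variation inequality at a cut pair, for one direction -/
theorem pair_unif (F : Facts e) {D : ℝ} (hD : 0 < D) (hB : InjGE e D) (x y : M) :
    ∃ C : ℝ, 0 ≤ C ∧ ∃ δ : ℝ, 0 < δ ∧ ∀ (u : TangentSpace 𝓘(ℝ, E) x)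
      (b : TangentSpace 𝓘(ℝ, E) y), ‖u‖ = 1 → Rev e D u b →
      ∀ (ξ : TangentSpace 𝓘(ℝ, E) x) (ζ : TangentSpace 𝓘(ℝ, E) y), ‖ξ‖ ≤ δ → ‖ζ‖ ≤ δ →
      dist (e x ξ) (e y ζ) ≤
        D - (inner ℝ u ξ + inner ℝ b ζ) + C * (‖ξ‖ ^ 2 + ‖ζ‖ ^ 2) := by
  obtain ⟨C, hC, δ, hδ, h⟩ := dist_unif F hD hB x
  obtain ⟨C', hC', δ', hδ', h'⟩ := dist_unif F hD hB y
  refine ⟨max C C', le_max_of_le_left hC, min δ δ', by positivity, ?_⟩
  intro u b hu hb ξ ζ hξ hζ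
  have h1 := h u ξ (hξ.trans (min_le_left _ _)) hu
  have h2 := h' b ζ (hζ.trans (min_le_right _ _)) hb.1
  have h3 : e x ((D / 2) • u) = e y ((D / 2) • b) := by
    rw [hb.2 (D / 2)]
    congr 2
    ring
  have h4 := dist_triangle (e x ξ) (e x ((D / 2) • u)) (e y ζ)
  rw [h3, dist_comm (e y ((D / 2) • b))] at h4
  rw [h3] at h1
  have h5 := mul_le_mul_of_nonneg_right (le_max_left C C') (by positivity : 0 ≤ ‖ξ‖ ^ 2)
  have h6 := mul_le_mul_of_nonneg_right (le_max_right C C') (by positivity : 0 ≤ ‖ζ‖ ^ 2)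
  linarith

/-- the map departure -> arrival preserves inner products -/
theorem Rev.inner_eq (F : Facts e) {D : ℝ} (hD : 0 < D) (hB : InjGE e D) {x y : M}
    {u u' : TangentSpace 𝓘(ℝ, E) x} {b b' : TangentSpace 𝓘(ℝ, E) y}
    (hu : ‖u‖ = 1) (hu' : ‖u'‖ = 1) (h : Rev e D u b) (h' : Rev e D u' b') :
    (inner ℝ u u' : ℝ) = inner ℝ b b' := by
  obtain ⟨C, hC, δ, hδ, hv⟩ := pair_unif F hD hB x y
  have key := eq_zero_of_quad (a := inner ℝ b b' - inner ℝ u u') (C := 2 * C) hδ (by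
    intro s hs
    have h1 := hv u b hu h (s • u') ((-s) • b')
      (by rw [norm_smul, hu', mul_one]; exact hs)
      (by rw [norm_smul, h'.1, mul_one, norm_neg]; exact hs)
    have h2 := dist_shift F hD hB hu' s
    rw [h'.2 (s + D)] at h2
    have h3 : D - (s + D) = -s := by ring
    rw [h3] at h2
    rw [h2, norm_smul, norm_smul, hu', h'.1, inner_smul_right, inner_smul_right] at h1
    simp only [norm_neg, mul_one, Real.norm_eq_abs, sq_abs] at h1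
    nlinarith [h1])
  linarith

/-- **The linear isometry departure direction -> arrival velocity** at a cut pair. -/
theorem exists_Tt (F : Facts e) {D : ℝ} (hD : 0 < D) (hB : InjGE e D)
    (hdiam : ∀ p q : M, dist p q ≤ D) {x y : M} (hxy : dist x y = D) :
    ∃ T : Pl e D y x ≃ₗᵢ[ℝ] Pl e D x y, ∀ u : Pl e D y x, ‖u‖ = 1 → ∀ s : ℝ,
      e x (s • (u : TangentSpace 𝓘(ℝ, E) x)) =
        e y ((s - D) • (T u : TangentSpace 𝓘(ℝ, E) y)) := by
  have hyx : dist y x = D := by rw [dist_comm, hxy]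
  have hfd : FiniteDimensional ℝ (TangentSpace 𝓘(ℝ, E) x) := finDimTS x
  have hfd' : FiniteDimensional ℝ (TangentSpace 𝓘(ℝ, E) y) := finDimTS y
  -- the map on unit vectors
  have hmap : ∀ u : Pl e D y x, ‖u‖ = 1 → ∃ b : Pl e D x y,
      Rev e D (u : TangentSpace 𝓘(ℝ, E) x) (b : TangentSpace 𝓘(ℝ, E) y) := by
    intro u hu
    have h1 : (u : TangentSpace 𝓘(ℝ, E) x) ∈ Lk e D y x :=
      (mem_Lk_iff F hD hB hdiam hyx).2 ⟨u.2, hu⟩
    obtain ⟨b, hb, hr⟩ := Rev.exists F h1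
    exact ⟨⟨b, Lk_subset_Pl e D x y hb⟩, hr⟩
  set n := finrank ℝ (Pl e D y x) with hn
  let B : OrthonormalBasis (Fin n) ℝ (Pl e D y x) := stdOrthonormalBasis ℝ (Pl e D y x)
  have hB1 : ∀ i, ‖B i‖ = 1 := fun i => B.orthonormal.1 i
  choose g hg using fun i => hmap (B i) (hB1 i)
  have hgn : Orthonormal ℝ (fun i => -g i) := by
    rw [orthonormal_iff_ite]
    intro i j
    have h1 := Rev.inner_eq F hD hB (hB1 i) (hB1 j) (hg i) (hg j)
    have h2 := orthonormal_iff_ite.1 B.orthonormal i j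
    rw [inner_neg_left, inner_neg_right, neg_neg]
    rw [← h2]
    exact h1.symm
  let T0 : Pl e D y x →ₗ[ℝ] Pl e D x y := B.toBasis.constr ℝ (fun i => -g i)
  have hT0 : ∀ i, T0 (B i) = -g i := fun i => by
    have := B.toBasis.constr_basis ℝ (fun i => -g i) i
    rwa [B.coe_toBasis] at this
  let T1 : Pl e D y x →ₗᵢ[ℝ] Pl e D x y := T0.isometryOfOrthonormal (v := B.toBasis)
    (by rw [B.coe_toBasis]; exact B.orthonormal)
    (by
      have : (T0 ∘ B.toBasis) = fun i => -g i := by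
        funext i
        rw [Function.comp_apply, B.coe_toBasis]
        exact hT0 i
      rw [this]
      exact hgn)
  have hT1 : ∀ v, T1 v = T0 v := fun v => rfl
  have hfr : finrank ℝ (Pl e D y x) = finrank ℝ (Pl e D x y) := finrank_Pl_comm F hD hB hdiam hxy
  refine ⟨T1.toLinearIsometryEquiv hfr, ?_⟩
  intro u hu s
  have hTu : (T1.toLinearIsometryEquiv hfr) u = T0 u := rfl
  rw [hTu]
  obtain ⟨b, hb⟩ := hmap u hu
  have hbT : T0 u = -b := by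
    have h1 : ∀ i, (inner ℝ (B i) u : ℝ) = inner ℝ (g i) b := fun i =>
      Rev.inner_eq F hD hB (hB1 i) hu (hg i) hb
    have h2 : (inner ℝ (T0 u) b : ℝ) = -1 := by
      have h3 : T0 u = ∑ i, (inner ℝ (B i) u : ℝ) • (-g i) := by
        conv_lhs => rw [← B.sum_repr u]
        rw [map_sum]
        refine Finset.sum_congr rfl fun i _ => ?_
        rw [map_smul, hT0, B.repr_apply_apply]
      rw [h3, sum_inner]
      have h4 : ∀ i, (inner ℝ ((inner ℝ (B i) u : ℝ) • (-g i)) b : ℝ) =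
          -((inner ℝ (B i) u : ℝ) ^ 2) := by
        intro i
        rw [inner_smul_left, inner_neg_left, ← h1 i]
        simp
        ring
      rw [Finset.sum_congr rfl fun i _ => h4 i, Finset.sum_neg_distrib]
      have h5 := B.sum_sq_norm_inner_right u
      rw [hu] at h5
      have h6 : ∑ i, (inner ℝ (B i) u : ℝ) ^ 2 = 1 := by
        rw [← one_pow 2, ← h5]
        refine Finset.sum_congr rfl fun i _ => ?_
        rw [Real.norm_eq_abs, sq_abs]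
      rw [h6]
    have hTn : ‖T0 u‖ = 1 := by rw [← hT1, T1.norm_map, hu]
    have hbn : ‖b‖ = 1 := hb.1
    have h7 : ‖T0 u + b‖ ^ 2 = 0 := by
      rw [norm_add_sq_real, hTn, hbn, h2]
      norm_num
    have h8 : T0 u + b = 0 := by
      rw [← norm_eq_zero]
      exact pow_eq_zero_iff (two_ne_zero) |>.1 h7
    exact eq_neg_of_add_eq_zero_left h8
  rw [hbT, hb.2 s]
  congr 1
  rw [Submodule.coe_neg, smul_neg, ← neg_smul]
  congr 1
  ring

/-- The linear isometry departure direction at `x` -> arrival velocity at `y`. -/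
def Tt (F : Facts e) {D : ℝ} (hD : 0 < D) (hB : InjGE e D)
    (hdiam : ∀ p q : M, dist p q ≤ D) {x y : M} (hxy : dist x y = D) :
    Pl e D y x ≃ₗᵢ[ℝ] Pl e D x y :=
  Classical.choose (exists_Tt F hD hB hdiam hxy)

theorem Tt_spec (F : Facts e) {D : ℝ} (hD : 0 < D) (hB : InjGE e D)
    (hdiam : ∀ p q : M, dist p q ≤ D) {x y : M} (hxy : dist x y = D) (u : Pl e D y x)
    (hu : ‖u‖ = 1) (s : ℝ) : e x (s • (u : TangentSpace 𝓘(ℝ, E) x)) =
      e y ((s - D) • (Tt F hD hB hdiam hxy u : TangentSpace 𝓘(ℝ, E) y)) :=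
  Classical.choose_spec (exists_Tt F hD hB hdiam hxy) u hu s

theorem Tt_rev (F : Facts e) {D : ℝ} (hD : 0 < D) (hB : InjGE e D)
    (hdiam : ∀ p q : M, dist p q ≤ D) {x y : M} (hxy : dist x y = D) (u : Pl e D y x)
    (hu : ‖u‖ = 1) : Rev e D (u : TangentSpace 𝓘(ℝ, E) x)
      (-(Tt F hD hB hdiam hxy u : TangentSpace 𝓘(ℝ, E) y)) := by
  refine ⟨?_, fun s => ?_⟩
  · rw [norm_neg]
    exact ((Tt F hD hB hdiam hxy).norm_map u).trans hu
  · rw [Tt_spec F hD hB hdiam hxy u hu s, smul_neg, ← neg_smul]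
    congr 2
    ring

/-- characterisation of `Tt` -/
theorem Tt_eq (F : Facts e) {D : ℝ} (hD : 0 < D) (hB : InjGE e D)
    (hdiam : ∀ p q : M, dist p q ≤ D) {x y : M} (hxy : dist x y = D) {u : Pl e D y x}
    {b : TangentSpace 𝓘(ℝ, E) y}
    (hb : ‖b‖ = 1) (h : ∀ s : ℝ, e x (s • (u : TangentSpace 𝓘(ℝ, E) x)) = e y ((s - D) • b))
    (hu : ‖u‖ = 1) : (Tt F hD hB hdiam hxy u : TangentSpace 𝓘(ℝ, E) y) = b := by
  have h1 := Tt_rev F hD hB hdiam hxy u hu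
  have h2 : Rev e D (u : TangentSpace 𝓘(ℝ, E) x) (-b) := by
    refine ⟨by rw [norm_neg, hb], fun s => ?_⟩
    rw [h s, smul_neg, ← neg_smul]
    congr 2
    ring
  have h3 := Rev.unique F hD hB h1 h2
  exact neg_injective h3

/-- the isometries at the two ends are inverse to each other -/
theorem Tt_Tt (F : Facts e) {D : ℝ} (hD : 0 < D) (hB : InjGE e D)
    (hdiam : ∀ p q : M, dist p q ≤ D) {x y : M} (hxy : dist x y = D) (hyx : dist y x = D)
    (u : Pl e D y x) : Tt F hD hB hdiam hyx (Tt F hD hB hdiam hxy u) = u := by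
  have hunit : ∀ u : Pl e D y x, ‖u‖ = 1 →
      Tt F hD hB hdiam hyx (Tt F hD hB hdiam hxy u) = u := by
    intro u hu
    set T := Tt F hD hB hdiam hxy with hT
    have h1 : ‖-(T u)‖ = 1 := by rw [norm_neg, T.norm_map, hu]
    have h2 := Tt_eq F hD hB hdiam hyx (u := -(T u)) (b := -(u : TangentSpace 𝓘(ℝ, E) x))
      (by rw [norm_neg]; exact hu) (by
        intro s
        have h3 := Tt_spec F hD hB hdiam hxy u hu (D - s)
        rw [Submodule.coe_neg, smul_neg, smul_neg, ← neg_smul, ← neg_smul]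
        have h4 : D - s - D = -s := by ring
        have h5 : -(s - D) = D - s := by ring
        rw [h4] at h3
        rw [h5]
        exact h3.symm) h1
    rw [map_neg, Submodule.coe_neg] at h2
    exact Subtype.ext (neg_injective h2)
  rcases eq_or_ne u 0 with rfl | h0
  · simp
  · have hn : 0 < ‖u‖ := norm_pos_iff.2 h0
    have h1 := hunit (‖u‖⁻¹ • u) (by
      rw [norm_smul, norm_inv, norm_norm, inv_mul_cancel₀ hn.ne'])
    rw [map_smul, map_smul] at h1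
    exact smul_right_injective _ (inv_ne_zero hn.ne') h1

theorem Tt_symm (F : Facts e) {D : ℝ} (hD : 0 < D) (hB : InjGE e D)
    (hdiam : ∀ p q : M, dist p q ≤ D) {x y : M} (hxy : dist x y = D) (hyx : dist y x = D) :
    (Tt F hD hB hdiam hxy).symm = Tt F hD hB hdiam hyx := by
  ext v
  have h1 := Tt_Tt F hD hB hdiam hxy hyx ((Tt F hD hB hdiam hxy).symm v)
  rw [LinearIsometryEquiv.apply_symm_apply] at h1
  rw [h1]

/-- the antipodal direction: the geodesic in direction `u` arrives with velocity `Tt u`, so that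
`exp_y (t Tt u) = exp_x ((t + D) u)` -/
theorem Tt_flow (F : Facts e) {D : ℝ} (hD : 0 < D) (hB : InjGE e D)
    (hdiam : ∀ p q : M, dist p q ≤ D) {x y : M} (hxy : dist x y = D) (u : Pl e D y x)
    (hu : ‖u‖ = 1) (t : ℝ) : e y (t • (Tt F hD hB hdiam hxy u : TangentSpace 𝓘(ℝ, E) y)) =
      e x ((t + D) • (u : TangentSpace 𝓘(ℝ, E) x)) := by
  rw [Tt_spec F hD hB hdiam hxy u hu (t + D), add_sub_cancel_right]

/-- **D2, one direction.** -/
theorem first_variation_dir (F : Facts e) {D : ℝ} (hD : 0 < D) (hB : InjGE e D)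
    (hdiam : ∀ p q : M, dist p q ≤ D) {x y : M} (hxy : dist x y = D) :
    ∃ C : ℝ, 0 ≤ C ∧ ∃ δ : ℝ, 0 < δ ∧ ∀ (ξ : TangentSpace 𝓘(ℝ, E) x)
      (ζ : TangentSpace 𝓘(ℝ, E) y), ‖ξ‖ ≤ δ → ‖ζ‖ ≤ δ → ∀ u : Pl e D y x, ‖u‖ = 1 →
      dist (e x ξ) (e y ζ) ≤
        D - (inner ℝ (u : TangentSpace 𝓘(ℝ, E) x) ξ -
          inner ℝ (Tt F hD hB hdiam hxy u : TangentSpace 𝓘(ℝ, E) y) ζ) +
          C * (‖ξ‖ ^ 2 + ‖ζ‖ ^ 2) := by
  obtain ⟨C, hC, δ, hδ, h⟩ := pair_unif F hD hB x y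
  refine ⟨C, hC, δ, hδ, fun ξ ζ hξ hζ u hu => ?_⟩
  have h1 := h u _ hu (Tt_rev F hD hB hdiam hxy u hu) ξ ζ hξ hζ
  rwa [inner_neg_left, ← sub_eq_add_neg] at h1

/-- **D2. First variation at a cut pair.** -/
theorem first_variation (F : Facts e) {D : ℝ} (hD : 0 < D) (hB : InjGE e D)
    (hdiam : ∀ p q : M, dist p q ≤ D) {x y : M} (hxy : dist x y = D) :
    ∃ C : ℝ, 0 ≤ C ∧ ∃ δ : ℝ, 0 < δ ∧ ∀ (ξ : TangentSpace 𝓘(ℝ, E) x)
      (ζ : TangentSpace 𝓘(ℝ, E) y), ‖ξ‖ ≤ δ → ‖ζ‖ ≤ δ →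
      dist (e x ξ) (e y ζ) ≤
        D - ‖(Pl e D y x).orthogonalProjectionOnto ξ -
          (Tt F hD hB hdiam hxy).symm ((Pl e D x y).orthogonalProjectionOnto ζ)‖ +
          C * (‖ξ‖ ^ 2 + ‖ζ‖ ^ 2) := by
  obtain ⟨C, hC, δ, hδ, h⟩ := first_variation_dir F hD hB hdiam hxy
  refine ⟨C, hC, δ, hδ, fun ξ ζ hξ hζ => ?_⟩
  set T := Tt F hD hB hdiam hxy with hT
  set a : Pl e D y x := (Pl e D y x).orthogonalProjectionOnto ξ -
    T.symm ((Pl e D x y).orthogonalProjectionOnto ζ) with ha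
  rcases eq_or_ne a 0 with h0 | h0
  · rw [h0, norm_zero, sub_zero]
    have h1 := hdiam (e x ξ) (e y ζ)
    have h2 : 0 ≤ C * (‖ξ‖ ^ 2 + ‖ζ‖ ^ 2) := by positivity
    linarith
  · have hn : 0 < ‖a‖ := norm_pos_iff.2 h0
    have hu : ‖‖a‖⁻¹ • a‖ = 1 := by
      rw [norm_smul, norm_inv, norm_norm, inv_mul_cancel₀ hn.ne']
    have h1 := h ξ ζ hξ hζ (‖a‖⁻¹ • a) hu
    have h2 : (inner ℝ (((‖a‖⁻¹ • a : Pl e D y x)) : TangentSpace 𝓘(ℝ, E) x) ξ : ℝ) -
        inner ℝ ((T (‖a‖⁻¹ • a) : Pl e D x y) : TangentSpace 𝓘(ℝ, E) y) ζ = ‖a‖ := by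
      have h3 : (inner ℝ (((‖a‖⁻¹ • a : Pl e D y x)) : TangentSpace 𝓘(ℝ, E) x) ξ : ℝ) =
          inner ℝ (‖a‖⁻¹ • a) ((Pl e D y x).orthogonalProjectionOnto ξ) :=
        (Submodule.inner_orthogonalProjectionOnto_eq_of_mem_left (‖a‖⁻¹ • a) ξ).symm
      have h4 : (inner ℝ ((T (‖a‖⁻¹ • a) : Pl e D x y) : TangentSpace 𝓘(ℝ, E) y) ζ : ℝ) =
          inner ℝ (T (‖a‖⁻¹ • a)) ((Pl e D x y).orthogonalProjectionOnto ζ) :=
        (Submodule.inner_orthogonalProjectionOnto_eq_of_mem_left (T (‖a‖⁻¹ • a)) ζ).symm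
      have h5 : (inner ℝ (T (‖a‖⁻¹ • a)) ((Pl e D x y).orthogonalProjectionOnto ζ) : ℝ) =
          inner ℝ (‖a‖⁻¹ • a) (T.symm ((Pl e D x y).orthogonalProjectionOnto ζ)) := by
        have := T.inner_map_map (‖a‖⁻¹ • a) (T.symm ((Pl e D x y).orthogonalProjectionOnto ζ))
        rw [T.apply_symm_apply] at this
        exact this
      rw [h3, h4, h5, ← inner_sub_right, ← ha, inner_smul_left, real_inner_self_eq_norm_sq]
      simp
      field_simp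
    rw [h2] at h1
    exact h1

end

end Vale.Agent.P231.WD2
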