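import Vale.Agent.P231.WD.Prism
import Vale.Agent.P231.H766.Uec2

/-!
# P231, stage 1, block D3: cones over curves and integrals of a closed form

`cone G F z c a b` is the integral of `F` over `(t, r) ↦ G z (c t) r` on `[a, b] × [0, 1]`
(`G` is the interpolation of `H766.Geo`).

* `cone_family` : moving the apex and the curve;
* `cone_rect` : a map of a rectangle into the ball around the apex;
* `cone_contraction` : a contraction through short loops.
-/

set_option linter.unusedSectionVars false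
set_option linter.unusedVariables false

open MeasureTheory Set Module Filter Topology
open scoped ContDiff Manifold ENNReal

namespace Vale.Agent.P231.WD

open Vale.Agent.P231.Fm Vale.Agent.P231.H766

variable {M : Type*} [MetricSpace M] {DM : Dif M} {D : ℝ}

/-- the integral of `F` over the cone with apex `z` over the curve `c` on `[a, b]` -/
noncomputable def cone (G : Geo DM D) (F : Form DM) (z : M) (c : ℝ → M) (a b : ℝ) : ℝ :=
  I2 F (fun p => G.G z (c p.1) p.2) a b 0 1

/-- the point `z` is a plot -/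
def Pt (DM : Dif M) (z : M) : Prop := DM.At (fun _ : ℝ => z) 0

theorem Pt.at {z : M} (h : Pt DM z) {E : Type} [NormedAddCommGroup E] [NormedSpace ℝ E]
    [FiniteDimensional ℝ E] (x : E) : DM.At (fun _ : E => z) x :=
  DM.comp (u := fun _ : ℝ => z) (g := fun _ : E => (0 : ℝ)) (x := x) h
    (Sm.of_contDiff contDiff_const _)

/-- a value of a plot is a point -/
theorem Pt.of_at {E : Type} [NormedAddCommGroup E] [NormedSpace ℝ E]
    [FiniteDimensional ℝ E] {u : E → M} {x : E} (h : DM.At u x) : Pt DM (u x) :=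
  Dif.At_const h 0

/-- a plot times an additional parameter -/
theorem at_fst {E E' : Type} [NormedAddCommGroup E] [NormedSpace ℝ E] [FiniteDimensional ℝ E]
    [NormedAddCommGroup E'] [NormedSpace ℝ E'] [FiniteDimensional ℝ E']
    {u : E → M} {p : E × E'} (h : DM.At u p.1) : DM.At (fun q : E × E' => u q.1) p :=
  DM.comp (u := u) (g := Prod.fst) (x := p) h (Sm.of_contDiff contDiff_fst _)

theorem at_snd {E E' : Type} [NormedAddCommGroup E] [NormedSpace ℝ E] [FiniteDimensional ℝ E]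
    [NormedAddCommGroup E'] [NormedSpace ℝ E'] [FiniteDimensional ℝ E']
    {u : E' → M} {p : E × E'} (h : DM.At u p.2) : DM.At (fun q : E × E' => u q.2) p :=
  DM.comp (u := u) (g := Prod.snd) (x := p) h (Sm.of_contDiff contDiff_snd _)

/-- the cone is a plot -/
theorem at_cone (G : Geo DM D) {z : M} {c : ℝ → M} {p : ℝ × ℝ} (hz : Pt DM z)
    (hc : DM.At c p.1) (hd : dist z (c p.1) < D) :
    DM.At (fun q : ℝ × ℝ => G.G z (c q.1) q.2) p :=
  G.smooth (a := fun _ : ℝ × ℝ => z) (b := fun q : ℝ × ℝ => c q.1) (s := Prod.snd)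
    (hz.at p) (at_fst hc) (Sm.of_contDiff contDiff_snd _) hd

theorem cone_congr (G : Geo DM D) (F : Form DM) {z : M} {c c' : ℝ → M} {a b : ℝ}
    (hz : Pt DM z) (hc : ∀ t ∈ uIcc a b, DM.At c t ∧ dist z (c t) < D)
    (h : ∀ t ∈ uIcc a b, c =ᶠ[𝓝 t] c') : cone G F z c a b = cone G F z c' a b := by
  refine I2_congr F fun t ht s _ => ?_
  refine ev2_congr F (at_cone G (p := (t, s)) hz (hc t ht).1 (hc t ht).2) ?_
  have h1 : Tendsto (Prod.fst : ℝ × ℝ → ℝ) (𝓝 (t, s)) (𝓝 t) := continuous_fst.continuousAt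
  filter_upwards [h1.eventually (h t ht)] with q hq
  rw [hq]

/-- the integrand of a cone with a constant curve vanishes -/
theorem cone_const (G : Geo DM D) (F : Form DM) {z y : M} (a b : ℝ) (hz : Pt DM z)
    (hy : Pt DM y) (hd : dist z y < D) : cone G F z (fun _ => y) a b = 0 := by
  refine I2_eq_zero F fun t _ s _ => ?_
  exact ev2_snd F (q := fun r => G.G z y r) (p := (t, s))
    (G.smooth (a := fun _ : ℝ => z) (b := fun _ : ℝ => y) (s := fun r => r)
      (hz.at s) (hy.at s) (Sm.of_contDiff contDiff_id _) hd)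

/-- the good set is open -/
theorem exists_open_good {G : Geo DM D} {E : Type} [NormedAddCommGroup E] [NormedSpace ℝ E]
    [FiniteDimensional ℝ E] {Z C : E → M} {S : Set E}
    (h : ∀ p ∈ S, DM.At Z p ∧ DM.At C p ∧ dist (Z p) (C p) < D) :
    ∃ U : Set E, IsOpen U ∧ S ⊆ U ∧ ∀ p ∈ U, DM.At Z p ∧ DM.At C p ∧ dist (Z p) (C p) < D := by
  refine ⟨interior {p | DM.At Z p ∧ DM.At C p ∧ dist (Z p) (C p) < D}, isOpen_interior,
    fun p hp => ?_, fun p hp => ?_⟩
  swap
  · have h1 : p ∈ {p | DM.At Z p ∧ DM.At C p ∧ dist (Z p) (C p) < D} := interior_subset hp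
    exact h1
  rw [mem_interior_iff_mem_nhds]
  obtain ⟨h1, h2, h3⟩ := h p hp
  have h4 : ∀ᶠ q in 𝓝 p, dist (Z q) (C q) < D :=
    ((G.cont h1).dist (G.cont h2)).eventually_lt_const h3
  filter_upwards [DM.open' h1, DM.open' h2, h4] with q e1 e2 e3 using ⟨e1, e2, e3⟩

/-- the prism between a family of points and a family of apices -/
theorem cone_prism (G : Geo DM D) {F : Form DM} (hF : F.d = 0) {Z C : ℝ × ℝ → M}
    {a b c d : ℝ} (h : ∀ p ∈ uIcc a b ×ˢ uIcc c d,
      DM.At Z p ∧ DM.At C p ∧ dist (Z p) (C p) < D) :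
    I2 F C a b c d - I2 F Z a b c d =
      (I2 F (fun q => G.G (Z (q.1, d)) (C (q.1, d)) q.2) a b 0 1 -
        I2 F (fun q => G.G (Z (q.1, c)) (C (q.1, c)) q.2) a b 0 1) -
      (I2 F (fun q => G.G (Z (b, q.1)) (C (b, q.1)) q.2) c d 0 1 -
        I2 F (fun q => G.G (Z (a, q.1)) (C (a, q.1)) q.2) c d 0 1) := by
  obtain ⟨U, hU, hsub, hgood⟩ := exists_open_good (G := G) h
  have hP : ∀ p ∈ U, ∀ r : ℝ, DM.At (fun q : (ℝ × ℝ) × ℝ => G.G (Z q.1) (C q.1) q.2) (p, r) :=
    fun p hp r => G.smooth (a := fun q : (ℝ × ℝ) × ℝ => Z q.1)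
      (b := fun q : (ℝ × ℝ) × ℝ => C q.1) (s := Prod.snd)
      (at_fst (p := (p, r)) (hgood p hp).1) (at_fst (p := (p, r)) (hgood p hp).2.1)
      (Sm.of_contDiff contDiff_snd _) (hgood p hp).2.2
  have key := prism F hF hU hsub hP
  have e1 : I2 F (fun p => G.G (Z p) (C p) 1) a b c d = I2 F C a b c d := by
    refine I2_congr F fun t ht s hs => ?_
    have hm : (t, s) ∈ U := hsub ⟨ht, hs⟩
    refine (ev2_congr F (hgood _ hm).2.1 ?_).symm
    filter_upwards [hU.mem_nhds hm] with q hq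
    exact (G.one _ _ (hgood q hq).2.2).symm
  have e0 : I2 F (fun p => G.G (Z p) (C p) 0) a b c d = I2 F Z a b c d := by
    refine I2_congr F fun t ht s hs => ?_
    have hm : (t, s) ∈ U := hsub ⟨ht, hs⟩
    refine (ev2_congr F (hgood _ hm).1 ?_).symm
    filter_upwards [hU.mem_nhds hm] with q hq
    exact (G.zero _ _ (hgood q hq).2.2).symm
  rw [e1, e0] at key
  exact key

/-- **Moving the apex and the closed curve.** -/
theorem cone_family (G : Geo DM D) {F : Form DM} (hF : F.d = 0) {Z : ℝ → M} {C : ℝ × ℝ → M}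
    {a b c d : ℝ} (h : ∀ t ∈ uIcc a b, ∀ s ∈ uIcc c d,
      DM.At Z s ∧ DM.At C (t, s) ∧ dist (Z s) (C (t, s)) < D)
    (hcl : ∀ s, C (a, s) = C (b, s)) :
    I2 F C a b c d = cone G F (Z d) (fun t => C (t, d)) a b -
      cone G F (Z c) (fun t => C (t, c)) a b := by
  have h1 := cone_prism G hF (Z := fun p => Z p.2) (C := C) (a := a) (b := b) (c := c) (d := d)
    (fun p hp => ⟨at_snd (h p.1 hp.1 p.2 hp.2).1, (h p.1 hp.1 p.2 hp.2).2.1,
      (h p.1 hp.1 p.2 hp.2).2.2⟩)
  have h2 : I2 F (fun p : ℝ × ℝ => Z p.2) a b c d = 0 :=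
    I2_eq_zero F fun t ht s hs => ev2_snd F (p := (t, s)) (h t ht s hs).1
  rw [h2, sub_zero] at h1
  have h3 : (fun q : ℝ × ℝ => G.G (Z q.1) (C (a, q.1)) q.2) =
      fun q : ℝ × ℝ => G.G (Z q.1) (C (b, q.1)) q.2 := by
    funext q
    rw [hcl]
  rw [h1, cone, cone]
  simp only at h3 ⊢
  rw [h3, sub_self, sub_zero]

/-- **A map of a rectangle into the ball around the apex.** -/
theorem cone_rect (G : Geo DM D) {F : Form DM} (hF : F.d = 0) {z : M} (hz : Pt DM z)
    {C : ℝ × ℝ → M} {a b c d : ℝ} (h : ∀ t ∈ uIcc a b, ∀ s ∈ uIcc c d,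
      DM.At C (t, s) ∧ dist z (C (t, s)) < D) :
    I2 F C a b c d =
      (cone G F z (fun t => C (t, d)) a b - cone G F z (fun t => C (t, c)) a b) -
      (cone G F z (fun s => C (b, s)) c d - cone G F z (fun s => C (a, s)) c d) := by
  have h1 := cone_prism G hF (Z := fun _ => z) (C := C) (a := a) (b := b) (c := c) (d := d)
    (fun p hp => ⟨hz.at p, (h p.1 hp.1 p.2 hp.2).1, (h p.1 hp.1 p.2 hp.2).2⟩)
  have h2 : I2 F (fun _ : ℝ × ℝ => z) a b c d = 0 :=
    I2_eq_zero F fun t ht s hs => ev2_snd F (q := fun _ => z) (p := (t, s)) (hz.at s)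
  rw [h2, sub_zero] at h1
  exact h1

/-- a closed rectangle map: the edges `t = a` and `t = b` agree and the edge `s = c` is a point -/
theorem cone_disc (G : Geo DM D) {F : Form DM} (hF : F.d = 0) {z y : M} (hz : Pt DM z)
    {C : ℝ × ℝ → M} {a b c d : ℝ} (h : ∀ t ∈ uIcc a b, ∀ s ∈ uIcc c d,
      DM.At C (t, s) ∧ dist z (C (t, s)) < D) (hcl : ∀ s, C (a, s) = C (b, s))
    (hpt : ∀ t, C (t, c) = y) :
    I2 F C a b c d = cone G F z (fun t => C (t, d)) a b := by
  rw [cone_rect G hF hz h]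
  have h1 : cone G F z (fun t => C (t, c)) a b = 0 := by
    have e1 : (fun t => C (t, c)) = fun _ => y := funext hpt
    rw [e1]
    obtain ⟨h2, h3⟩ := h a left_mem_uIcc c left_mem_uIcc
    rw [hpt] at h3
    have h4 : Pt DM (C (a, c)) := Pt.of_at h2
    rw [hpt] at h4
    exact cone_const G F a b hz h4 h3
  have h2 : (fun s => C (b, s)) = fun s => C (a, s) := funext fun s => (hcl s).symm
  rw [h1, h2, sub_self, sub_zero, sub_zero]

/-- distances in a closed curve of small variation -/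
theorem dist_lt_of_var {c : ℝ → M} {a b : ℝ} (hc : c b = c a) {D : ℝ}
    (h : eVariationOn c (Icc a b) < 2 * ENNReal.ofReal D) {s : ℝ} (hs : s ∈ Icc a b) :
    dist (c a) (c s) < D := by
  have e1 : edist (c a) (c s) ≤ eVariationOn c (Icc a s) :=
    eVariationOn.edist_le c ⟨le_rfl, hs.1⟩ ⟨hs.1, le_rfl⟩
  have e2 : edist (c a) (c s) ≤ eVariationOn c (Icc s b) := by
    have := eVariationOn.edist_le c (s := Icc s b) (x := b) (y := s) ⟨hs.2, le_rfl⟩
      ⟨le_rfl, hs.2⟩
    rwa [hc] at this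
  have e3 : eVariationOn c (Icc a s) + eVariationOn c (Icc s b) = eVariationOn c (Icc a b) := by
    have := eVariationOn.Icc_add_Icc c (s := univ) (a := a) (b := s) (c := b) hs.1 hs.2
      (mem_univ _)
    simpa using this
  rw [← e3] at h
  have h2 : edist (c a) (c s) < ENNReal.ofReal D := by
    by_contra h2
    push Not at h2
    have : 2 * ENNReal.ofReal D ≤ eVariationOn c (Icc a s) + eVariationOn c (Icc s b) := by
      rw [two_mul]
      exact add_le_add (h2.trans e1) (h2.trans e2)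
    exact absurd h (not_lt.2 this)
  rw [edist_dist] at h2
  exact (ENNReal.ofReal_lt_ofReal_iff_of_nonneg dist_nonneg).1 h2

/-- **A contraction through short closed curves.** -/
theorem cone_contraction (G : Geo DM D) {F : Form DM} (hF : F.d = 0) {H : ℝ × ℝ → M}
    {T : ℝ} (hT : 0 ≤ T) (hH : ∀ t ∈ Icc 0 T, ∀ s ∈ Icc (0 : ℝ) 1, DM.At H (t, s))
    (hcl : ∀ s, H (0, s) = H (T, s)) (hend : ∀ t, H (t, 1) = H (0, 1))
    (hvar : ∀ s ∈ Icc (0 : ℝ) 1,
      eVariationOn (fun t => H (t, s)) (Icc 0 T) < 2 * ENNReal.ofReal D) :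
    I2 F H 0 T 0 1 = -cone G F (H (0, 0)) (fun t => H (t, 0)) 0 T := by
  have hg : ∀ t ∈ uIcc 0 T, ∀ s ∈ uIcc (0 : ℝ) 1, DM.At (fun s => H (0, s)) s ∧
      DM.At H (t, s) ∧ dist (H (0, s)) (H (t, s)) < D := by
    intro t ht s hs
    rw [uIcc_of_le hT] at ht
    rw [uIcc_of_le zero_le_one] at hs
    refine ⟨?_, hH t ht s hs, ?_⟩
    · exact DM.comp (u := H) (g := fun s : ℝ => ((0 : ℝ), s)) (x := s)
        (hH 0 ⟨le_rfl, hT⟩ s hs) (Sm.of_contDiff (contDiff_const.prodMk contDiff_id) _)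
    · exact dist_lt_of_var (c := fun t => H (t, s)) (hcl s).symm (hvar s hs) ht
  rw [cone_family G hF (Z := fun s => H (0, s)) (C := H) hg hcl]
  have h1 : cone G F (H (0, 1)) (fun t => H (t, 1)) 0 T = 0 := by
    have e1 : (fun t => H (t, 1)) = fun _ => H (0, 1) := funext hend
    rw [e1]
    obtain ⟨-, h2, h3⟩ := hg 0 left_mem_uIcc 1 right_mem_uIcc
    exact cone_const G F 0 T (Pt.of_at h2) (Pt.of_at h2) h3
  rw [h1, zero_sub]

end Vale.Agent.P231.WD
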