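import Vale.Agent.P231.WD.FirstVar

/-! P231, block D1 (LEMMA D): two points on one great sphere `S(x, y)`, `dist x y = D`, which are
not antipodal are at distance less than `D`. -/

set_option maxSynthPendingDepth 3
set_option linter.unusedSectionVars false

open Bundle Manifold Set Filter Module
open scoped ContDiff Manifold Topology

namespace Vale.Agent.P231.WD1

noncomputable section

open Vale.Agent.P234 Vale.Agent.P231 Vale.Agent.P231.H703 Vale.Agent.P231.WD2

variable {E : Type*} [NormedAddCommGroup E] [NormedSpace ℝ E]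
  {M : Type*} [MetricSpace M] [ChartedSpace E M]
  [RiemannianBundle (fun x : M => TangentSpace 𝓘(ℝ, E) x)]
  {e : ∀ x : M, TangentSpace 𝓘(ℝ, E) x → M}
  [FiniteDimensional ℝ E] [IsManifold 𝓘(ℝ, E) ∞ M]
  [IsContMDiffRiemannianBundle 𝓘(ℝ, E) ∞ E (fun x : M => TangentSpace 𝓘(ℝ, E) x)]
  [CompactSpace M] [ConnectedSpace M] [IsRiemannianManifold 𝓘(ℝ, E) M]

/-- scalar lemma -/
theorem one_le_of_quad {a C δ : ℝ} (hδ : 0 < δ)
    (h : ∀ τ : ℝ, 0 < τ → τ ≤ δ → τ ≤ τ * a + C * τ ^ 2) : 1 ≤ a := by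
  by_contra ha
  push Not at ha
  have hC : C ≤ |C| := le_abs_self C
  set t : ℝ := min δ ((1 - a) / (2 * (|C| + 1))) with ht
  have h1a : 0 < 1 - a := by linarith
  have ht0 : 0 < t := by positivity
  have ht2 : t * (2 * (|C| + 1)) ≤ 1 - a := by
    have := min_le_right δ ((1 - a) / (2 * (|C| + 1)))
    rw [← ht] at this
    rwa [le_div_iff₀ (by positivity)] at this
  have h2 := h t ht0 (min_le_left _ _)
  nlinarith [h2, ht2, mul_le_mul_of_nonneg_left hC (by positivity : 0 ≤ t ^ 2), ht0,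
    mul_pos ht0 ht0, mul_pos ht0 h1a]

/-- unit vectors with inner product at least one are equal -/
theorem eq_of_one_le_inner {x : M} {u w : TangentSpace 𝓘(ℝ, E) x} (hu : ‖u‖ = 1) (hw : ‖w‖ = 1)
    (h : 1 ≤ (inner ℝ u w : ℝ)) : u = w := by
  have h1 : ‖u - w‖ ^ 2 ≤ 0 := by
    rw [norm_sub_sq_real, hu, hw]
    linarith
  have h2 : ‖u - w‖ = 0 := by
    have := sq_nonneg ‖u - w‖
    exact pow_eq_zero_iff (two_ne_zero) |>.1 (le_antisymm h1 this)
  exact sub_eq_zero.1 (norm_eq_zero.1 h2)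

/-- no corner, with one leg of length at least `D/2` -/
theorem corner_half (F : Facts e) {D : ℝ} (hD : 0 < D) (hB : InjGE e D) (x : M)
    {u w : TangentSpace 𝓘(ℝ, E) x} (hu : ‖u‖ = 1) (hw : ‖w‖ = 1) {s t : ℝ} (hs : D / 2 ≤ s)
    (hsD : s ≤ D) (ht : 0 < t) (htD : t ≤ D)
    (h : s + t ≤ dist (e x (s • w)) (e x (t • u))) : u = -w := by
  obtain ⟨C, hC, δ, hδ, hv⟩ := dist_unif F hD hB x
  have hnorm : ∀ (z : TangentSpace 𝓘(ℝ, E) x), ‖z‖ = 1 → ∀ a : ℝ, 0 ≤ a → ‖a • z‖ = a := by
    intro z hz a ha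
    rw [norm_smul, hz, mul_one, Real.norm_of_nonneg ha]
  have key : ∀ τ : ℝ, 0 < τ → τ ≤ min δ t →
      τ ≤ τ * (-(inner ℝ w u : ℝ)) + C * τ ^ 2 := by
    intro τ hτ hτ1
    have h1 := hv w (τ • u) (by rw [hnorm u hu τ hτ.le]; exact hτ1.trans (min_le_left _ _)) hw
    rw [hnorm u hu τ hτ.le, inner_smul_right] at h1
    -- distance from `exp (D/2 w)` to `exp (s w)`
    have h2 : dist (e x (s • w)) (e x ((D / 2) • w)) ≤ s - D / 2 := by
      have h5 := dist_exp_le F.isExp x w s (D / 2)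
      rw [hw, mul_one, abs_sub_comm, abs_of_nonneg (by linarith)] at h5
      exact h5
    have h3 : dist (e x (τ • u)) (e x (t • u)) ≤ t - τ := by
      have h5 := dist_exp_le F.isExp x u τ t
      rw [hu, mul_one, abs_of_nonneg (by linarith [hτ1.trans (min_le_right δ t)])] at h5
      exact h5
    have h4 := dist_triangle4 (e x (s • w)) (e x ((D / 2) • w)) (e x (τ • u)) (e x (t • u))
    rw [dist_comm (e x ((D / 2) • w))] at h4
    linarith
  have h1 := one_le_of_quad (lt_min hδ ht) key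
  exact eq_of_one_le_inner hu (by rw [norm_neg, hw]) (by
    rw [inner_neg_right, real_inner_comm]; exact h1)

/-- no corner -/
theorem corner (F : Facts e) {D : ℝ} (hD : 0 < D) (hB : InjGE e D) (x : M)
    {u w : TangentSpace 𝓘(ℝ, E) x} (hu : ‖u‖ = 1) (hw : ‖w‖ = 1) {s t : ℝ} (hs : 0 < s)
    (ht : 0 < t) (hst : s + t = D) (h : D ≤ dist (e x (s • w)) (e x (t • u))) : u = -w := by
  rcases le_total (D / 2) s with h1 | h1
  · exact corner_half F hD hB x hu hw h1 (by linarith) ht (by linarith) (by linarith)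
  · have h2 := corner_half F hD hB x hw hu (s := t) (t := s) (by linarith) (by linarith) hs
      (by linarith) (by rw [dist_comm]; linarith)
    rw [h2, neg_neg]

/-- **Two points on a great sphere which are not antipodal are at distance less than `D`.** -/
theorem sphere_lt (F : Facts e) {D : ℝ} (hD : 0 < D) (hB : InjGE e D) {x y : M}
    {u w : TangentSpace 𝓘(ℝ, E) x} (hu : u ∈ Lk e D y x) (hw : w ∈ Lk e D y x) {s t : ℝ}
    (hs : 0 ≤ s) (hsD : s ≤ D) (ht : 0 ≤ t) (htD : t ≤ D)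
    (h : s + t = D → 0 < s ∧ 0 < t ∧ u ≠ -w) : dist (e x (s • w)) (e x (t • u)) < D := by
  rcases lt_trichotomy (s + t) D with h1 | h1 | h1
  · have h2 := dist_triangle_left (e x (s • w)) (e x (t • u)) x
    have h3 := dist_exp_le' F.isExp x (s • w)
    have h4 := dist_exp_le' F.isExp x (t • u)
    rw [norm_smul, hw.1, mul_one, Real.norm_of_nonneg hs] at h3
    rw [norm_smul, hu.1, mul_one, Real.norm_of_nonneg ht] at h4
    linarith
  · obtain ⟨h2, h3, h4⟩ := h h1
    by_contra hn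
    push Not at hn
    exact h4 (corner F hD hB x hu.1 hw.1 h2 h3 h1 hn)
  · have h2 := dist_triangle_right (e x (s • w)) (e x (t • u)) y
    have h3 := dist_exp_le F.isExp x w s D
    have h4 := dist_exp_le F.isExp x u t D
    rw [hw.2, hw.1, mul_one, abs_of_nonneg (by linarith)] at h3
    rw [hu.2, hu.1, mul_one, abs_of_nonneg (by linarith)] at h4
    linarith

/-- **LEMMA D.** A point `exp_x (s w)`, `0 < s < D`, of the great sphere of a cut pair is at
distance less than `D` from every point of every geodesic of this sphere which passes through `x`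
but not through the point. -/
theorem lemD (F : Facts e) {D : ℝ} (hD : 0 < D) (hB : InjGE e D)
    (hdiam : ∀ p q : M, dist p q ≤ D) {x y : M}
    {u w : TangentSpace 𝓘(ℝ, E) x} (hu : u ∈ Lk e D y x) (hw : w ∈ Lk e D y x) (h1 : w ≠ u)
    (h2 : w ≠ -u) {s : ℝ} (hs : 0 < s) (hsD : s < D) (t : ℝ) :
    dist (e x (s • w)) (e x (t • u)) < D := by
  have hper : ∀ (n : ℤ) (r : ℝ), e x ((r + n * (2 * D)) • u) = e x (r • u) := by
    intro n r
    have hcl : ∀ (x : M) (v : E), nm x v = 2 * D → e x v = x :=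
      fun x v hv => closed_of_inj_diam F hD hB hdiam x v hv
    have hp : Function.Periodic (fun r : ℝ => gam e x u r) (2 * D) := fun r =>
      gam_per F hD.le hcl x u hu.1 r
    exact hp.int_mul n r
  obtain ⟨n, hn⟩ : ∃ n : ℤ, -D ≤ t + n * (2 * D) ∧ t + n * (2 * D) ≤ D := by
    refine ⟨-round (t / (2 * D)), ?_⟩
    have h3 := abs_sub_round (t / (2 * D))
    have h4 : t = (t / (2 * D)) * (2 * D) := by field_simp
    have h5 : t + (-round (t / (2 * D)) : ℤ) * (2 * D) =
        (t / (2 * D) - round (t / (2 * D))) * (2 * D) := by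
      push_cast
      linear_combination h4
    rw [h5]
    have h6 := abs_le.1 h3
    constructor <;> nlinarith [h6.1, h6.2]
  rw [← hper n t]
  rcases le_total 0 (t + n * (2 * D)) with h3 | h3
  · exact sphere_lt F hD hB hu hw hs.le hsD.le h3 hn.2 fun h4 =>
      ⟨hs, by linarith, fun h5 => h2 (by rw [h5, neg_neg])⟩
  · have h4 := sphere_lt F hD hB (link_neg F hD hB hdiam hu) hw (t := -(t + n * (2 * D)))
      hs.le hsD.le (by linarith) (by linarith [hn.1]) fun h4 =>
        ⟨hs, by linarith, fun h5 => h1 (neg_injective h5).symm⟩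
    rwa [smul_neg, neg_smul, neg_neg] at h4

/-- LEMMA D for orthonormal vectors -/
theorem lemD_orth (F : Facts e) {D : ℝ} (hD : 0 < D) (hB : InjGE e D)
    (hdiam : ∀ p q : M, dist p q ≤ D) {x y : M}
    {u w : TangentSpace 𝓘(ℝ, E) x} (hu : u ∈ Lk e D y x) (hw : w ∈ Lk e D y x)
    (h : (inner ℝ u w : ℝ) = 0) {s : ℝ} (hs : 0 < s) (hsD : s < D) (t : ℝ) :
    dist (e x (s • w)) (e x (t • u)) < D := by
  have h3 : (inner ℝ u u : ℝ) = 1 := by rw [real_inner_self_eq_norm_sq, hu.1]; norm_num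
  refine lemD F hD hB hdiam hu hw ?_ ?_ hs hsD t
  · rintro rfl
    rw [h3] at h
    exact one_ne_zero h
  · rintro rfl
    rw [inner_neg_right, h3] at h
    norm_num at h

end

end Vale.Agent.P231.WD1
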