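import Vale.Agent.P231.WD.Apex
import Vale.Agent.P231.WD.LemD
import Vale.Agent.P231.W.Defs

/-!
# P231, block D4.1: the apex of the cone over the pushed-off closed geodesic
-/

set_option maxSynthPendingDepth 3
set_option linter.unusedSectionVars false
set_option linter.unusedVariables false

open Bundle Manifold Set Filter Module
open scoped ContDiff Manifold Topology

namespace Vale.Agent.P231.WD

noncomputable section

open Vale.Agent.P234 Vale.Agent.P231 Vale.Agent.P231.Fm Vale.Agent.P231.W Vale.Agent.P231.H703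
  Vale.Agent.P231.WD1 Vale.Agent.P231.WD2

variable {E : Type*} [NormedAddCommGroup E] [NormedSpace ℝ E]
  {M : Type*} [MetricSpace M] [ChartedSpace E M]
  [RiemannianBundle (fun x : M => TangentSpace 𝓘(ℝ, E) x)]
  {e : ∀ x : M, TangentSpace 𝓘(ℝ, E) x → M}
  [FiniteDimensional ℝ E] [IsManifold 𝓘(ℝ, E) ∞ M]
  [IsContMDiffRiemannianBundle 𝓘(ℝ, E) ∞ E (fun x : M => TangentSpace 𝓘(ℝ, E) x)]
  [CompactSpace M] [ConnectedSpace M] [IsRiemannianManifold 𝓘(ℝ, E) M]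

theorem mem_Lk_of_Pl (F : Facts e) {D : ℝ} (hD : 0 < D) (hB : InjGE e D)
    (hdiam : ∀ p q : M, dist p q ≤ D) {x y : M} (hxy : dist x y = D) (u : Pl e D y x)
    (hu : ‖u‖ = 1) : (u : TangentSpace 𝓘(ℝ, E) x) ∈ Lk e D y x :=
  (mem_Lk_iff F hD hB hdiam (by rw [dist_comm]; exact hxy)).2 ⟨u.2, hu⟩

/-- geodesics close up at time `2 D` -/
theorem exp_add_two (F : Facts e) {D : ℝ} (hD : 0 < D) (hB : InjGE e D)
    (hdiam : ∀ p q : M, dist p q ≤ D) (x : M) {u : TangentSpace 𝓘(ℝ, E) x} (hu : ‖u‖ = 1) (t : ℝ) :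
    e x ((t + 2 * D) • u) = e x (t • u) := by
  have hcl : ∀ (x : M) (v : E), nm x v = 2 * D → e x v = x :=
    fun x v hv => closed_of_inj_diam F hD hB hdiam x v hv
  exact gam_per F hD.le hcl x (u : E) hu t

/-- distances along a geodesic from its foot, away from the cut point -/
theorem dist_exp_lt (F : Facts e) {D : ℝ} (hD : 0 < D) (hB : InjGE e D)
    (hdiam : ∀ p q : M, dist p q ≤ D) (x : M) {u : TangentSpace 𝓘(ℝ, E) x} (hu : ‖u‖ = 1) {t : ℝ}
    (h0 : 0 ≤ t) (h1 : t ≤ 2 * D) (h : t ≠ D) : dist x (e x (t • u)) < D := by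
  have key : ∀ r : ℝ, dist x (e x (r • u)) ≤ |r| := fun r => by
    have h2 := dist_exp_le' F.isExp x (r • u)
    rw [norm_smul, hu, mul_one, Real.norm_eq_abs] at h2
    exact h2
  rcases lt_or_gt_of_ne h with h2 | h2
  · refine (key t).trans_lt ?_
    rwa [abs_of_nonneg h0]
  · have h3 := exp_add_two F hD hB hdiam x hu (t - 2 * D)
    rw [sub_add_cancel] at h3
    rw [h3]
    refine (key _).trans_lt ?_
    rw [abs_of_nonpos (by linarith)]
    linarith

/-- first order expansion of the pushed-off geodesic in exponential coordinates at the cut point -/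
theorem exists_zeta (F : Facts e) {y : M} (u' Y' : TangentSpace 𝓘(ℝ, E) y) {f : ℝ × ℝ → M}
    (hf : ∀ᶠ p in 𝓝 (0 : ℝ × ℝ), ContMDiffAt 𝓘(ℝ, ℝ × ℝ) 𝓘(ℝ, E) ∞ f p)
    (h1 : ∀ τ : ℝ, f (τ, 0) = e y (τ • u')) (h2 : ∀ ε : ℝ, f (0, ε) = e y (ε • Y')) :
    ∃ (ζ : ℝ × ℝ → TangentSpace 𝓘(ℝ, E) y) (L : ℝ × ℝ →L[ℝ] TangentSpace 𝓘(ℝ, E) y),
      HasFDerivAt ζ L 0 ∧ ζ 0 = 0 ∧ (∀ τ ε : ℝ, L (τ, ε) = τ • u' + ε • Y') ∧
        ∀ᶠ p in 𝓝 (0 : ℝ × ℝ), e y (ζ p) = f p := by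
  have he := F.isExp
  have hf0 : f 0 = y := by
    have := h1 0
    rw [zero_smul, he.map_zero] at this
    exact this
  have hlog : ContMDiffAt 𝓘(ℝ, E) 𝓘(ℝ, TangentSpace 𝓘(ℝ, E) y) ∞ (logMap e y) (f 0) := by
    rw [hf0]
    exact contMDiffAt_logMap he (area_smoothAt_diag F y)
  have hζ : ContDiffAt ℝ ∞ (fun p => logMap e y (f p)) 0 :=
    (ContMDiffAt.comp (0 : ℝ × ℝ) hlog hf.self_of_nhds).contDiffAt
  have hd := (hζ.differentiableAt (by simp)).hasFDerivAt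
  have hsmall : ∀ᶠ b : TangentSpace 𝓘(ℝ, E) y in 𝓝 0, logMap e y (e y b) = b :=
    eventually_logMap_exp he F.hopfRinow
      (injDomain_subset_segMin F.isExp y (zero_mem_injDomain F.isExp y))
      (by rw [he.map_zero]; exact area_smoothAt_diag F y)
  refine ⟨fun p => logMap e y (f p), _, hd, ?_, ?_, ?_⟩
  · change logMap e y (f 0) = 0
    rw [hf0]
    exact area_logMap_self F y
  · -- the two partial derivatives
    have k1 : fderiv ℝ (fun p => logMap e y (f p)) 0 (1, 0) = u' := by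
      have hline : HasDerivAt (fun τ : ℝ => ((τ, 0) : ℝ × ℝ)) (1, 0) 0 :=
        (hasDerivAt_id (0 : ℝ)).prodMk (hasDerivAt_const 0 (0 : ℝ))
      have hd' : HasFDerivAt (fun p => logMap e y (f p))
          (fderiv ℝ (fun p => logMap e y (f p)) 0) ((0 : ℝ), (0 : ℝ)) := hd
      have h3 := HasFDerivAt.comp_hasDerivAt (f := fun τ : ℝ => ((τ, 0) : ℝ × ℝ)) (0 : ℝ) hd' hline
      have h4 : HasDerivAt (fun τ : ℝ => τ • u') u' 0 := by
        simpa using (hasDerivAt_id (0 : ℝ)).smul_const u'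
      have h5 : ((fun p => logMap e y (f p)) ∘ fun τ : ℝ => ((τ, 0) : ℝ × ℝ)) =ᶠ[𝓝 0]
          fun τ : ℝ => τ • u' := by
        have hc : Tendsto (fun τ : ℝ => τ • u') (𝓝 0) (𝓝 0) := by
          have : Continuous fun τ : ℝ => τ • u' := by fun_prop
          exact this.tendsto' 0 0 (zero_smul _ _)
        filter_upwards [hc.eventually hsmall] with τ hτ
        change logMap e y (f (τ, 0)) = τ • u'
        rw [h1, hτ]
      exact (h3.congr_of_eventuallyEq h5.symm).unique h4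
    have k2 : fderiv ℝ (fun p => logMap e y (f p)) 0 (0, 1) = Y' := by
      have hline : HasDerivAt (fun τ : ℝ => ((0, τ) : ℝ × ℝ)) (0, 1) 0 :=
        (hasDerivAt_const 0 (0 : ℝ)).prodMk (hasDerivAt_id (0 : ℝ))
      have hd' : HasFDerivAt (fun p => logMap e y (f p))
          (fderiv ℝ (fun p => logMap e y (f p)) 0) ((0 : ℝ), (0 : ℝ)) := hd
      have h3 := HasFDerivAt.comp_hasDerivAt (f := fun τ : ℝ => ((0, τ) : ℝ × ℝ)) (0 : ℝ) hd' hline
      have h4 : HasDerivAt (fun τ : ℝ => τ • Y') Y' 0 := by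
        simpa using (hasDerivAt_id (0 : ℝ)).smul_const Y'
      have h5 : ((fun p => logMap e y (f p)) ∘ fun τ : ℝ => ((0, τ) : ℝ × ℝ)) =ᶠ[𝓝 0]
          fun τ : ℝ => τ • Y' := by
        have hc : Tendsto (fun τ : ℝ => τ • Y') (𝓝 0) (𝓝 0) := by
          have : Continuous fun τ : ℝ => τ • Y' := by fun_prop
          exact this.tendsto' 0 0 (zero_smul _ _)
        filter_upwards [hc.eventually hsmall] with τ hτ
        change logMap e y (f (0, τ)) = τ • Y'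
        rw [h2, hτ]
      exact (h3.congr_of_eventuallyEq h5.symm).unique h4
    intro τ ε
    have h6 : ((τ, ε) : ℝ × ℝ) = τ • ((1, 0) : ℝ × ℝ) + ε • ((0, 1) : ℝ × ℝ) := by simp
    rw [h6, map_add, map_smul, map_smul, k1, k2]
  · have h3 := eventually_logMap he F.hopfRinow (area_smoothAt_diag F y)
    have h4 : Tendsto f (𝓝 0) (𝓝 y) := by
      have := hf.self_of_nhds.continuousAt
      rwa [ContinuousAt, hf0] at this
    filter_upwards [h4.eventually h3] with p hp using hp.2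

/-- **The apex moves inside the balls.** -/
theorem apex_geom (F : Facts e) {D : ℝ} (hD : 0 < D) (hB : InjGE e D)
    (hdiam : ∀ p q : M, dist p q ≤ D) {x y : M} (hxy : dist x y = D)
    (u w : Pl e D y x) (hu : ‖u‖ = 1) (hw : ‖w‖ = 1) (huw : (inner ℝ u w : ℝ) = 0)
    (Y : TangentSpace 𝓘(ℝ, E) x) (Y' : TangentSpace 𝓘(ℝ, E) y)
    (ha : 0 < (inner ℝ Y (w : TangentSpace 𝓘(ℝ, E) x) : ℝ) -
      inner ℝ Y' (Tt F hD hB hdiam hxy w : TangentSpace 𝓘(ℝ, E) y))
    {C : ℝ → ℝ → M} (hC : ∀ p : ℝ × ℝ, (dM E M).At (fun p : ℝ × ℝ => C p.1 p.2) p)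
    (hC0 : ∀ t, C t 0 = e x (t • (u : TangentSpace 𝓘(ℝ, E) x)))
    (hper : ∀ t ε, C (t + 2 * D) ε = C t ε)
    (hCD : ∀ ε : ℝ, C D ε = e y (ε • Y')) :
    ∃ ε₁ : ℝ, 0 < ε₁ ∧
      (∀ ε ∈ Ioc 0 ε₁, ∀ s ∈ Icc 0 (D / 2), ∀ t,
        dist (e x (s • (w : TangentSpace 𝓘(ℝ, E) x) + ε • Y)) (C t ε) < D) ∧
      ∀ ε ∈ Icc 0 ε₁, ∀ σ ∈ Icc (0 : ℝ) 1, ∀ t,
        dist (e x ((D / 2) • (w : TangentSpace 𝓘(ℝ, E) x) + (σ * ε) • Y)) (C t ε) < D := by
  have he := F.isExp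
  have hwT := mem_Lk_of_Pl F hD hB hdiam hxy w hw
  have huT := mem_Lk_of_Pl F hD hB hdiam hxy u hu
  -- continuity
  have hCcont : Continuous fun p : ℝ × ℝ => C p.1 p.2 :=
    continuous_iff_continuousAt.2 fun p => (hC p).self_of_nhds.continuousAt
  have hexp : Continuous (e x) := (contMDiff_exp_fiber he x).continuous
  have hZcont : Continuous fun p : ℝ × ℝ => e x (p.1 • (w : TangentSpace 𝓘(ℝ, E) x) + p.2 • Y) :=
    hexp.comp (by fun_prop)
  have hZcont' : Continuous fun p : ℝ × ℝ =>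
      e x ((D / 2) • (w : TangentSpace 𝓘(ℝ, E) x) + (p.1 * p.2) • Y) :=
    hexp.comp (by fun_prop)
  -- the far estimates
  have hfar : ∀ s ∈ Ioc 0 (D / 2), ∀ t, dist (e x (s • (w : TangentSpace 𝓘(ℝ, E) x) +
      (0 : ℝ) • Y)) (C t 0) < D := by
    intro s hs t
    rw [zero_smul, add_zero, hC0]
    exact lemD_orth F hD hB hdiam huT hwT huw hs.1 (by linarith [hs.2]) t
  obtain ⟨ε₂, hε₂, h2⟩ := apex_compact' (Z := fun σ ε =>
      e x ((D / 2) • (w : TangentSpace 𝓘(ℝ, E) x) + (σ * ε) • Y)) (D := D) (T := 2 * D)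
      (by linarith) hZcont' hCcont hper (fun σ _ t _ => by
        have := hfar (D / 2) ⟨by linarith, le_rfl⟩ t
        simpa using this)
  -- the near estimate
  obtain ⟨K, hK, δ, hδ, hvar⟩ := first_variation_dir F hD hB hdiam hxy
  set u' : TangentSpace 𝓘(ℝ, E) y := (Tt F hD hB hdiam hxy u : TangentSpace 𝓘(ℝ, E) y) with hu'
  set w' : TangentSpace 𝓘(ℝ, E) y := (Tt F hD hB hdiam hxy w : TangentSpace 𝓘(ℝ, E) y) with hw'
  have hu'n : ‖u'‖ = 1 := ((Tt F hD hB hdiam hxy).norm_map u).trans hu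
  have huw' : (inner ℝ u' w' : ℝ) = 0 := ((Tt F hD hB hdiam hxy).inner_map_map u w).trans huw
  let f : ℝ × ℝ → M := fun p => C (D + p.1) p.2
  have hf : ∀ p, (dM E M).At f p := fun p =>
    (dM E M).comp (u := fun p : ℝ × ℝ => C p.1 p.2) (g := fun p : ℝ × ℝ => (D + p.1, p.2))
      (x := p) (hC _) (Sm.of_contDiff (by fun_prop) _)
  obtain ⟨ζ, L, hζ, hζ0, hL, hev⟩ := exists_zeta F u' Y' (f := f) (hf 0)
    (fun τ => by
      change C (D + τ) 0 = _
      rw [hC0, hu', Tt_flow F hD hB hdiam hxy u hu, add_comm])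
    (fun ε => by
      change C (D + 0) ε = _
      rw [add_zero, hCD])
  have hnear := apex_near (ex := e x) (ex' := e y) (D := D) (K := K) hδ
    (v := (u : TangentSpace 𝓘(ℝ, E) x)) (w := (w : TangentSpace 𝓘(ℝ, E) x)) (y := Y)
    (v' := u') (w' := w') (y' := Y') hw (by rw [real_inner_comm]; exact huw) hu'n huw' ha
    (fun ξ ζ hξ hζ => by
      have := hvar ξ ζ hξ hζ w hw
      rw [real_inner_comm ξ, real_inner_comm ζ] at this
      linarith)
    (fun ξ ζ hξ hζ => by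
      have := hvar ξ ζ hξ hζ u hu
      rw [real_inner_comm ξ, real_inner_comm ζ] at this
      linarith)
    (fun ξ ζ hξ hζ => by
      have := hvar ξ ζ hξ hζ (-u) (by rw [norm_neg]; exact hu)
      rw [map_neg, Submodule.coe_neg, Submodule.coe_neg, inner_neg_left, inner_neg_left,
        real_inner_comm ξ, real_inner_comm ζ] at this
      linarith) hζ hζ0 hL
  have hc0 : Tendsto (fun p : ℝ × ℝ × ℝ => (p.2.2, p.1)) (𝓝 0) (𝓝 (0 : ℝ × ℝ)) := by
    have hc : Continuous fun p : ℝ × ℝ × ℝ => (p.2.2, p.1) := by fun_prop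
    exact hc.tendsto' 0 0 rfl
  have hnear' : ∀ᶠ p : ℝ × ℝ × ℝ in 𝓝 0, 0 ≤ p.2.1 → 0 < p.1 →
      dist (e x (p.2.1 • (w : TangentSpace 𝓘(ℝ, E) x) + p.1 • Y)) (C (D + p.2.2) p.1) < D := by
    filter_upwards [hnear, hc0.eventually hev] with p hp1 hp2 h1 h2
    have := hp1 h1 h2
    rwa [hp2] at this
  have hshift : Tendsto (fun p : ℝ × ℝ × ℝ => (p.1, p.2.1, p.2.2 - D)) (𝓝 (0, 0, D))
      (𝓝 (0 : ℝ × ℝ × ℝ)) := by
    have hc : Continuous fun p : ℝ × ℝ × ℝ => (p.1, p.2.1, p.2.2 - D) := by fun_prop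
    exact hc.tendsto' _ _ (by simp)
  obtain ⟨ε₃, hε₃, h3⟩ := apex_compact (Z := fun s ε =>
      e x (s • (w : TangentSpace 𝓘(ℝ, E) x) + ε • Y)) (C := C) (D := D) (T := 2 * D) (S := D / 2)
      (t₀ := D) (by linarith) hZcont hCcont hper
      (by
        filter_upwards [hshift.eventually hnear'] with p hp h1 h2
        have := hp h1 h2
        simpa using this)
      (fun t ht htD => by
        rw [zero_smul, zero_smul, add_zero, he.map_zero, hC0]
        exact dist_exp_lt F hD hB hdiam x hu ht.1 ht.2 htD)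
      (fun s hs t _ => hfar s hs t)
  refine ⟨min ε₂ ε₃, lt_min hε₂ hε₃, fun ε hε => h3 ε ⟨hε.1, hε.2.trans (min_le_right _ _)⟩,
    fun ε hε => h2 ε ⟨hε.1, hε.2.trans (min_le_left _ _)⟩⟩

end

end Vale.Agent.P231.WD
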