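import Vale.Agent.P231.WD.Hemi
import Vale.Agent.P231.WD.ApexM
import Vale.Agent.P231.WD.GeoInst
import Vale.Agent.P231.WR.Rot

/-!
# P231, block D4: the rotation period as a difference of cone integrals
-/

set_option maxSynthPendingDepth 3
set_option linter.unusedSectionVars false
set_option linter.unusedVariables false

open Bundle Manifold Set Filter Module
open scoped ContDiff Manifold Topology Real

namespace Vale.Agent.P231.WD

noncomputable section

open Vale.Agent.P234 Vale.Agent.P231 Vale.Agent.P231.Fm Vale.Agent.P231.W Vale.Agent.P231.H703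
  Vale.Agent.P231.WD1 Vale.Agent.P231.WD2 Vale.Agent.P231.WD3 Vale.Agent.P231.WR

variable {E : Type*} [NormedAddCommGroup E] [NormedSpace ℝ E]
  {M : Type*} [MetricSpace M] [ChartedSpace E M]
  [RiemannianBundle (fun x : M => TangentSpace 𝓘(ℝ, E) x)]
  {e : ∀ x : M, TangentSpace 𝓘(ℝ, E) x → M}
  [FiniteDimensional ℝ E] [IsManifold 𝓘(ℝ, E) ∞ M]
  [IsContMDiffRiemannianBundle 𝓘(ℝ, E) ∞ E (fun x : M => TangentSpace 𝓘(ℝ, E) x)]
  [CompactSpace M] [ConnectedSpace M] [IsRiemannianManifold 𝓘(ℝ, E) M]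

/-- the apex `exp (r w)`, `w` the unit vector orthogonal to `v` in the plane of `v` -/
def apx (e : ∀ x : M, TangentSpace 𝓘(ℝ, E) x → M) (w : UT E M → UT E M) (v : UT E M) (r : ℝ) : M :=
  gam e (foot v) (vec' (w v)) r

theorem pt_M (z : M) : Pt (dM E M) z := by
  have h : ∀ᶠ y in 𝓝 (0 : ℝ), ContMDiffAt 𝓘(ℝ, ℝ) 𝓘(ℝ, E) ∞ (fun _ : ℝ => z) y :=
    Eventually.of_forall fun _ => contMDiffAt_const
  exact h

theorem at_const_UT (v : UT E M) {E' : Type} [NormedAddCommGroup E'] [NormedSpace ℝ E']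
    [FiniteDimensional ℝ E'] (x : E') : (dUT E M).At (fun _ : E' => v) x := by
  have h : ∀ᶠ y in 𝓝 x, ContMDiffAt 𝓘(ℝ, E') 𝓘(ℝ, E).tangent ∞ (fun _ : E' => v.1) y :=
    Eventually.of_forall fun _ => contMDiffAt_const
  exact h

theorem at_gm (F : Facts e) (v : UT E M) (t : ℝ) : (dM E M).At (fun t => gm e (v, t)) t :=
  map_gm F (u := fun t => (v, t)) ⟨at_const_UT v t, Sm.of_contDiff contDiff_id t⟩

theorem gm_add_two (F : Facts e) {D : ℝ} (hD : 0 < D) (hB : InjGE e D)
    (hdiam : ∀ p q : M, dist p q ≤ D) (v : UT E M) (t : ℝ) :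
    gm e (v, t + 2 * D) = gm e (v, t) := by
  have h4 := phi_per F hD hB hdiam v
  have h5 := gm_phi F v (2 * D) t
  rw [h4] at h5
  rw [h5, add_comm]

/-- the great sphere through `v` -/
def sph (e : ∀ x : M, TangentSpace 𝓘(ℝ, E) x → M) {D : ℝ} {w : UT E M → UT E M}
    (h : IsSec e D w) (v : UT E M) (p : ℝ × ℝ) : M := gm e (h.rot (v, p.1), p.2)

theorem sph_eq {D : ℝ} {w : UT E M → UT E M} (h : IsSec e D w) (v : UT E M) (θ t : ℝ) :
    sph e h v (θ, t) =
      gam e (foot v) (Real.cos θ • vec' v + Real.sin θ • vec' (w v)) t := rfl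

theorem sph_at (F : Facts e) {D : ℝ} (hD : 0 < D) (hB : InjGE e D)
    (hdiam : ∀ p q : M, dist p q ≤ D) {w : UT E M → UT E M} (h : IsSec e D w) (v : UT E M)
    (p : ℝ × ℝ) : (dM E M).At (sph e h v) p := by
  have h1 : (dUT E M).At (fun p : ℝ × ℝ => h.rot (v, p.1)) p :=
    h.map_rot F hD hB hdiam (u := fun p : ℝ × ℝ => (v, p.1))
      ⟨at_const_UT v p, Sm.of_contDiff contDiff_fst p⟩
  exact map_gm F (u := fun p : ℝ × ℝ => (h.rot (v, p.1), p.2)) ⟨h1, Sm.of_contDiff contDiff_snd p⟩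

/-- points of the sphere in the open half around the apex -/
theorem dist_apx_sph (F : Facts e) {D : ℝ} (hD : 0 < D) (hB : InjGE e D)
    (hdiam : ∀ p q : M, dist p q ≤ D) {w : UT E M → UT E M} (h : IsSec e D w) (v : UT E M)
    {σ θ t : ℝ} (hσ : σ = 1 ∨ σ = -1) (hθ : 0 ≤ σ * Real.sin θ) (ht0 : 0 ≤ t) (htD : t ≤ D) :
    dist (apx e w v (σ * (D / 2))) (sph e h v (θ, t)) < D := by
  have hL := h.isL v
  have hu : ((Real.cos θ • vec' v + Real.sin θ • vec' (w v) : E) : TangentSpace 𝓘(ℝ, E) (foot v)) ∈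
      Lk e D (bar e D v) (foot v) := hL.comb F hD hB hdiam (Real.cos_sq_add_sin_sq θ)
  have hw : ((0 : ℝ) • vec' v + σ • vec' (w v) : E) ∈
      (Lk e D (bar e D v) (foot v) : Set (TangentSpace 𝓘(ℝ, E) (foot v))) :=
    hL.comb F hD hB hdiam (by rcases hσ with rfl | rfl <;> norm_num)
  have hw0 : ((0 : ℝ) • vec' v + σ • vec' (w v) : E) = σ • vec' (w v) := by
    rw [zero_smul, zero_add]
  rw [hw0] at hw
  have key := sphere_lt F hD hB hu hw (s := D / 2) (t := t) (by linarith) (by linarith) ht0 htD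
    (fun hst => ⟨by linarith, by linarith, fun hneg => by
      have h1 : ip (foot v) (Real.cos θ • vec' v + Real.sin θ • vec' (w v) : E) (vec' (w v)) =
          Real.sin θ := by
        rw [ip_add_left', ip_smul_left', ip_smul_left', hL.orth, hL.ip_self]
        ring
      have h2 : ip (foot v) (-(σ • vec' (w v)) : E) (vec' (w v)) = -σ := by
        rw [← neg_smul, ip_smul_left', hL.ip_self, mul_one]
      have h3 : (Real.cos θ • vec' v + Real.sin θ • vec' (w v) : E) = -(σ • vec' (w v)) := hneg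
      rw [h3, h2] at h1
      rcases hσ with rfl | rfl
      · rw [← h1] at hθ; linarith
      · rw [← h1] at hθ; linarith⟩)
  have e1 : apx e w v (σ * (D / 2)) = e (foot v)
      ((D / 2) • (σ • vec' (w v) : E) : TangentSpace 𝓘(ℝ, E) (foot v)) := by
    have h4 : ((D / 2) • (σ • vec' (w v) : E) : E) = (σ * (D / 2)) • vec' (w v) := by
      rw [smul_smul, mul_comm]
    exact congrArg (e (foot v)) h4.symm
  rw [e1]
  exact key

/-- **The rotation period.** -/
theorem rot_period (F : Facts e) {D : ℝ} (hD : 0 < D) (hB : InjGE e D)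
    (hdiam : ∀ p q : M, dist p q ≤ D) {w : UT E M → UT E M} (h : IsSec e D w) (v : UT E M)
    {Om : Form (dM E M)} (hO : Om.d = 0) :
    I2 Om (sph e h v) 0 (2 * π) 0 D =
      cone (geoM F hB) Om (apx e w v (D / 2)) (fun t => gm e (v, t)) 0 (2 * D) -
      cone (geoM F hB) Om (apx e w v (-(D / 2))) (fun t => gm e (v, t)) 0 (2 * D) := by
  refine sphere_cone (geoM F hB) hO (x := foot v) (x' := bar e D v) (pt_M _) (pt_M _)
    (sph_at F hD hB hdiam h v) hD.le (fun θ => ?_) (fun θ => ?_) (fun t => ?_)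
    (fun θ hθ t ht => ?_) (fun θ hθ t ht => ?_) (fun t => at_gm F v t) (fun t => ?_) (fun t => ?_)
  · change gm e (h.rot (v, θ), 0) = foot v
    rw [gm_zero F, h.foot_rot]
  · exact h.bar_rot F hD hB hdiam (v, θ)
  · rw [sph_eq, sph_eq, Real.cos_two_pi, Real.sin_two_pi, Real.cos_zero, Real.sin_zero]
  · have := dist_apx_sph F hD hB hdiam h v (σ := 1) (θ := θ) (t := t) (Or.inl rfl)
      (by rw [one_mul]; exact Real.sin_nonneg_of_nonneg_of_le_pi hθ.1 hθ.2) ht.1 ht.2
    rwa [one_mul] at this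
  · have hs : Real.sin θ ≤ 0 := by
      have h1 : Real.sin (θ - π) = -Real.sin θ := Real.sin_sub_pi θ
      have h2 := Real.sin_nonneg_of_nonneg_of_le_pi (x := θ - π) (by linarith [hθ.1])
        (by linarith [hθ.2])
      linarith
    have := dist_apx_sph F hD hB hdiam h v (σ := -1) (θ := θ) (t := t) (Or.inr rfl)
      (by linarith) ht.1 ht.2
    have e1 : (-1 : ℝ) * (D / 2) = -(D / 2) := by ring
    rwa [e1] at this
  · rw [sph_eq, Real.cos_zero, Real.sin_zero, one_smul, zero_smul, add_zero]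
    rfl
  · rw [sph_eq, Real.cos_pi, Real.sin_pi, zero_smul, add_zero]
    have h1 := gam_smul (e := e) (foot v) (vec' v) (-1) t
    rw [h1]
    change gm e (v, -1 * t) = _
    rw [← gm_add_two F hD hB hdiam v (-1 * t)]
    congr 2
    ring

/-- the value of the rotation period at a point -/
theorem aug_J_rot (F : Facts e) {D : ℝ} (hD : 0 < D) (hB : InjGE e D)
    (hdiam : ∀ p q : M, dist p q ≤ D) {w : UT E M → UT E M} (h : IsSec e D w) (v : UT E M)
    {Om : Form (dM E M)} (hO : Om.d = 0) :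
    aug ((J h.rot (h.map_rot F hD hB hdiam) (2 * π)
      (KT D (Form.pull (gm e) (map_gm F) Om))).val (fun _ : ℝ => v) 0) =
      -(cone (geoM F hB) Om (apx e w v (D / 2)) (fun t => gm e (v, t)) 0 (2 * D) -
      cone (geoM F hB) Om (apx e w v (-(D / 2))) (fun t => gm e (v, t)) 0 (2 * D)) := by
  rw [aug_J_KT Om (map_gm F) (h.map_rot F hD hB hdiam) (2 * π) D (at_const_UT v (0 : ℝ)),
    ← rot_period F hD hB hdiam h v hO]
  rfl

end

end Vale.Agent.P231.WD
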