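import Vale.Agent.P231.WD.Const
import Vale.Agent.P231.WD.KapRot
import Vale.Agent.P231.WF.UecUT
import Vale.Agent.P231.H766.Kap1
import Vale.Agent.P231.H766.Kap3
import Vale.Agent.P231.WR.Th

/-!
# P231, block D4: the constant `κ'`
-/

set_option maxSynthPendingDepth 3
set_option linter.unusedSectionVars false
set_option linter.unusedVariables false

open Bundle Manifold Set Filter Module
open scoped ContDiff Manifold Topology Real

namespace Vale.Agent.P231.WD

noncomputable section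

open Vale.Agent.P234 Vale.Agent.P231 Vale.Agent.P231.Fm Vale.Agent.P231.W Vale.Agent.P231.H703
  Vale.Agent.P231.WD1 Vale.Agent.P231.WD2 Vale.Agent.P231.WD3 Vale.Agent.P231.WR
  Vale.Agent.P231.H766

/-- shift of a periodic annulus -/
theorem I2_shift {X : Type*} {D : Dif X} (F : Form D) {Q : ℝ × ℝ → X} {T : ℝ} (c : ℝ)
    (hQ : ∀ p : ℝ × ℝ, p.2 ∈ Icc (0 : ℝ) 1 → D.At Q p) (hper : ∀ t s, Q (t + T, s) = Q (t, s)) :
    I2 F (fun p => Q (p.1 + c, p.2)) 0 T 0 1 = I2 F Q 0 T 0 1 := by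
  have u1 : uIcc (0 : ℝ) 1 = Icc 0 1 := uIcc_of_le zero_le_one
  have h1 := I2_affine F (Q := Q) (a := 0) (b := T) (c := 0) (d := 1) (α := 1) (β := c) (γ := 1)
    (δ := 0) (fun t _ s hs => hQ _ (by simpa [u1] using hs))
  simp only [one_mul, add_zero, zero_add] at h1
  rw [h1]
  have hp : Function.Periodic (fun t => ∫ s in (0 : ℝ)..1, ev2 F Q (t, s)) T := by
    intro t
    refine intervalIntegral.integral_congr fun s hs => ?_
    rw [u1] at hs
    have h2 := ev2_affine F (Q := Q) (α := 1) (β := T) (γ := 1) (δ := 0) (p := (t, s))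
      (hQ _ (by simpa using hs))
    simp only [one_mul, add_zero] at h2
    have h3 : (fun p : ℝ × ℝ => Q (p.1 + T, p.2)) = Q := by
      funext p
      exact hper p.1 p.2
    rw [h3] at h2
    exact h2.symm
  have h4 := hp.intervalIntegral_add_eq c 0
  rw [zero_add, add_comm c T] at h4
  exact h4

/-- the two notions of degree -/
theorem isDeg_bridge {X : Type*} {D : Dif X} {k : ℕ} {w : Form D} (h : Form.IsDeg k w) :
    WF.IsDeg w k := fun {E} _ _ _ {u x} hu => by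
  have h1 : (Form.part k w).val u x = w.val u x := by rw [h.part_eq]
  rw [Form.part_val] at h1
  rw [← h1]
  exact WA.prt_mem k _

variable {E : Type*} [NormedAddCommGroup E] [NormedSpace ℝ E]
  {M : Type*} [MetricSpace M] [ChartedSpace E M]
  [RiemannianBundle (fun x : M => TangentSpace 𝓘(ℝ, E) x)]
  {e : ∀ x : M, TangentSpace 𝓘(ℝ, E) x → M}
  [FiniteDimensional ℝ E] [IsManifold 𝓘(ℝ, E) ∞ M]
  [IsContMDiffRiemannianBundle 𝓘(ℝ, E) ∞ E (fun x : M => TangentSpace 𝓘(ℝ, E) x)]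
  [CompactSpace M] [ConnectedSpace M] [IsRiemannianManifold 𝓘(ℝ, E) M]

/-- a cone over a geodesic does not depend on the starting point -/
theorem cone_shift (F : Facts e) {D : ℝ} (hD : 0 < D) (hB : InjGE e D)
    (hdiam : ∀ p q : M, dist p q ≤ D) {z : M} {v : UT E M} (c : ℝ)
    (hz : ∀ t, dist z (gm e (v, t)) < D) (Om : Form (dM E M)) :
    cone (geoM F hB) Om z (fun t => gm e (phi F (v, c), t)) 0 (2 * D) =
      cone (geoM F hB) Om z (fun t => gm e (v, t)) 0 (2 * D) := by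
  have h1 := I2_shift Om (Q := fun p : ℝ × ℝ => (geoM F hB).G z (gm e (v, p.1)) p.2)
    (T := 2 * D) c (fun p _ => at_cone (geoM F hB) (c := fun t => gm e (v, t)) (p := p) (pt_M z)
      (at_gm F v p.1) (hz p.1))
    (fun t s => congrArg (fun y => (geoM F hB).G z y s) (gm_add_two F hD hB hdiam v t))
  refine Eq.trans ?_ h1
  have h2 : (fun p : ℝ × ℝ => (geoM F hB).G z (gm e (phi F (v, c), p.1)) p.2) =
      fun p : ℝ × ℝ => (geoM F hB).G z (gm e (v, p.1 + c)) p.2 := by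
    funext p
    refine congrArg (fun y => (geoM F hB).G z y p.2) ?_
    rw [gm_phi, add_comm]
  exact congrArg (fun Q => I2 Om Q 0 (2 * D) 0 1) h2

/-- the reversed direction of the section at the far end -/
theorem rev_w (F : Facts e) {D : ℝ} {w : UT E M → UT E M} (hw : IsSec e D w) {v : UT E M}
    (h : w (phi F (v, D)) = ng (phi F (w v, D))) :
    WD2.Rev e D (x := foot v) (y := foot (phi F (v, D))) (tt (foot v) (vec' (w v)))
      (tt (foot (phi F (v, D))) (vec' (w (phi F (v, D))))) := by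
  have hL := hw.isL v
  have hL' := hw.isL (phi F (v, D))
  have h0 : nm (foot (phi F (v, D))) (vec' (w (phi F (v, D)))) = 1 := by
    have := nm_vec' (w (phi F (v, D)))
    rwa [hL'.foot_eq] at this
  have h1 : vel e (foot v) (vec' (w v)) D = -vec' (w (phi F (v, D))) := hw.vel_w_eq F h
  have h2 : gam e (foot v) (vec' (w v)) D = foot (phi F (v, D)) := by
    have h3 := hL.bar_eq
    rw [bar, gm, bar, hL.foot_eq] at h3
    exact h3
  refine ⟨h0, fun s => ?_⟩
  have h4 := gam_flow F (foot v) (vec' (w v)) D (s - D)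
  rw [add_sub_cancel, h1, h2] at h4
  have h5 : ((s - D) • -vec' (w (phi F (v, D))) : E) = (D - s) • vec' (w (phi F (v, D))) := by
    rw [smul_neg, ← neg_smul, neg_sub]
  have h6 : gam e (foot (phi F (v, D))) (-vec' (w (phi F (v, D)))) (s - D) =
      e (foot (phi F (v, D))) ((D - s) • vec' (w (phi F (v, D))) : E) :=
    congrArg (e (foot (phi F (v, D)))) h5
  exact h4.symm.trans h6

/-- the three data of the push-off (block C): a smooth field along the footpoint map, its sign,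
and the length of the loops of the two push-offs -/
structure Push (F : Facts e) (D : ℝ) (w : UT E M → UT E M) (Y : UT E M → E) (ε₀ : ℝ) : Prop where
  fld : IsFld Y
  sgn : ∀ v, 0 < ip (foot v) (Y v) (vec' (w v)) +
    ip (foot (phi F (v, D))) (Y (phi F (v, D))) (vec' (w (phi F (v, D))))
  pos : 0 < ε₀
  lenp : ∀ ε ∈ Ioc 0 ε₀, ∀ v, eVariationOn (fun t => po e Y (phi F (v, t), ε)) (Icc 0 (2 * D)) <
    ENNReal.ofReal (2 * D)
  lenm : ∀ ε ∈ Ioc 0 ε₀, ∀ v, eVariationOn (fun t => po e (fun v => -Y v) (phi F (v, t), ε))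
    (Icc 0 (2 * D)) < ENNReal.ofReal (2 * D)

/-- the contraction of a push-off -/
theorem exists_con (F : Facts e) {D : ℝ} (hD : 0 < D) (hB : InjGE e D)
    (hdiam : ∀ p q : M, dist p q ≤ D) {Y : UT E M → E} (hY : IsFld Y) {ε : ℝ}
    (hlen : ∀ v, eVariationOn (fun t => po e Y (phi F (v, t), ε)) (Icc 0 (2 * D)) <
      ENNReal.ofReal (2 * D)) :
    ∃ H : UT E M → ℝ → M,
      ((dUT E M).prod (Dif.lin ℝ)).Map (dM E M) (fun p => H p.1 p.2) ∧
      (∀ v u, u ≤ 0 → H v u = po e Y (v, ε)) ∧ (∀ v t, H (phi F (v, t)) 1 = H v 1) ∧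
      (∀ v u, eVariationOn (fun t => H (phi F (v, t)) u) (Icc 0 (2 * D)) <
        2 * ENNReal.ofReal D) := by
  have h2 : ENNReal.ofReal (2 * D) = 2 * ENNReal.ofReal D := by
    rw [ENNReal.ofReal_mul zero_le_two, ENNReal.ofReal_ofNat]
  obtain ⟨H, h3, h4, h5, h6, h7, _⟩ := WF.uec_UT F hD hB hdiam (C := fun v => po e Y (v, ε))
    (H584.map_at (map_po F hY) ε) hlen
  refine ⟨fun v u => H (v, u), h3, h4, h6, fun v u => ?_⟩
  rw [← h2]
  exact (h7 v u).trans_lt (hlen v)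

/-- **The constant of the geodesic flow.** -/
theorem exists_two (F : Facts e) {D : ℝ} (hD : 0 < D) (hB : InjGE e D)
    (hdiam : ∀ p q : M, dist p q ≤ D) (h2 : 2 ≤ finrank ℝ E) {w : UT E M → UT E M}
    (hw : IsSec e D w) (hwφ : ∀ v, w (phi F (v, D)) = ng (phi F (w v, D))) {Y : UT E M → E}
    {ε₀ : ℝ} (hY : Push F D w Y ε₀) {Om : Form (dM E M)} (hO : Om.d = 0)
    (hO2 : WF.IsDeg Om 2) {κ : ℝ} (hJ0 : J hw.rot (hw.map_rot F hD hB hdiam) (2 * π)
      (KT D (Form.pull (gm e) (map_gm F) Om)) = κ • 1) (v₀ : UT E M) :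
    ∃ (gp gm' : UT E M × ℝ → M) (hgp : ((dUT E M).prod (Dif.lin ℝ)).Map (dM E M) gp)
      (hgm : ((dUT E M).prod (Dif.lin ℝ)).Map (dM E M) gm'),
      (∀ v, gp (v, 0) = foot v) ∧ (∀ v t, gp (phi F (v, t), 1) = gp (v, 1)) ∧
      (∀ v, gm' (v, 0) = foot v) ∧ (∀ v t, gm' (phi F (v, t), 1) = gm' (v, 1)) ∧
      J (phi F) (map_phi F) (2 * D) (Form.K (Form.pull gp hgp Om) -
        Form.pull (fun v => phi F (v, D)) (H584.map_at (map_phi F) D)
          (Form.K (Form.pull gm' hgm Om))) = (-κ) • 1 := by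
  -- the point at the far end
  let v₁ : UT E M := phi F (v₀, D)
  have hv₁ : phi F (v₁, D) = v₀ := by
    change phi F (phi F (v₀, D), D) = v₀
    rw [phi_add, ← two_mul, phi_per F hD hB hdiam]
  have orth : ∀ v, ip (foot v) (vec' v) (vec' (w v)) = 0 := fun v => (hw.isL v).orth
  have unit : ∀ v, nm (foot v) (vec' (w v)) = 1 := fun v => by
    have := nm_vec' (w v)
    rwa [(hw.isL v).foot_eq] at this
  obtain ⟨ε₁, hε₁, h₁⟩ := I2_gg_UT F hD hB hdiam hY.fld hO (v := v₀) (unit v₀) (orth v₀)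
    (rev_w F hw (hwφ v₀)) (hY.sgn v₀)
  obtain ⟨ε₂, hε₂, h₂⟩ := I2_gg_UT_neg F hD hB hdiam hY.fld hO (v := v₁) (unit v₁) (orth v₁)
    (rev_w F hw (hwφ v₁)) (hY.sgn v₁)
  set ε := min ε₀ (min ε₁ ε₂) with hε
  have hεpos : 0 < ε := lt_min hY.pos (lt_min hε₁ hε₂)
  have m0 : ε ∈ Ioc 0 ε₀ := ⟨hεpos, min_le_left _ _⟩
  have m1 : ε ∈ Ioc 0 ε₁ := ⟨hεpos, (min_le_right _ _).trans (min_le_left _ _)⟩
  have m2 : ε ∈ Ioc 0 ε₂ := ⟨hεpos, (min_le_right _ _).trans (min_le_right _ _)⟩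
  obtain ⟨Hp, p1, p2, p3, p4⟩ := exists_con F hD hB hdiam hY.fld (hY.lenp ε m0)
  obtain ⟨Hm, q1, q2, q3, q4⟩ := exists_con F hD hB hdiam (IsFld.neg hY.fld) (hY.lenm ε m0)
  have a₁ := h₁ ε m1 Hp p1 p2 p3 p4
  have a₂ := h₂ ε m2 Hm q1 q2 q3 q4
  -- the two apices
  have z₂ : e (foot v₁) ((D / 2) • (-vec' (w v₁)) : E) = apx e w v₀ (-(D / 2)) := by
    have hr := rev_w F hw (hwφ v₀)
    have hcl : ∀ (x : M) (v : E), nm x v = 2 * D → e x v = x :=
      fun x v hv => closed_of_inj_diam F hD hB hdiam x v hv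
    have r1 : e (foot v₀) ((-(D / 2)) • vec' (w v₀) : E) =
      e (foot v₁) ((D - -(D / 2)) • vec' (w v₁) : E) := hr.2 (-(D / 2))
    have r2 := gam_per F hD.le hcl (foot v₁) (vec' (w v₁)) (unit v₁) (-(D / 2))
    have r3 : -(D / 2) + 2 * D = D - -(D / 2) := by ring
    rw [r3] at r2
    have r4 : ((D / 2) • (-vec' (w v₁)) : E) = (-(D / 2)) • vec' (w v₁) := by
      rw [smul_neg, neg_smul]
    exact ((congrArg (e (foot v₁)) r4).trans r2.symm).trans r1.symm
  have hz₂ : ∀ t, dist (apx e w v₀ (-(D / 2))) (gm e (v₀, t)) < D := by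
    intro t
    have hn := (hw.isL v₀).ng F hD hB hdiam
    have key := WD1.lemD_orth F hD hB hdiam (mem_Lk_self (e := e) D v₀) hn.mem_Lk hn.orth
      (s := D / 2) (by linarith) (by linarith) t
    have e1 : e (foot v₀) ((D / 2) • vec' (WR.ng (w v₀)) : E) = apx e w v₀ (-(D / 2)) := by
      refine congrArg (e (foot v₀)) ?_
      change ((D / 2) • (-vec' (w v₀)) : E) = (-(D / 2)) • vec' (w v₀)
      rw [smul_neg, neg_smul]
    rw [← e1]
    exact key
  have c₂ : cone (geoM F hB) Om (e (foot v₁) ((D / 2) • (-vec' (w v₁)) : E))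
      (fun t => gm e (v₁, t)) 0 (2 * D) = cone (geoM F hB) Om (apx e w v₀ (-(D / 2)))
      (fun t => gm e (v₀, t)) 0 (2 * D) := by
    rw [z₂]
    exact cone_shift F hD hB hdiam D hz₂ Om
  -- the value of the rotation period
  have hrot := aug_J_rot F hD hB hdiam hw v₀ hO
  rw [hJ0] at hrot
  have hκ : κ = -(cone (geoM F hB) Om (apx e w v₀ (D / 2)) (fun t => gm e (v₀, t)) 0 (2 * D) -
      cone (geoM F hB) Om (apx e w v₀ (-(D / 2))) (fun t => gm e (v₀, t)) 0 (2 * D)) := by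
    rw [← hrot, Form.smul_val, Form.one_val (at_const_UT v₀ (0 : ℝ)), map_smul, map_one,
      smul_eq_mul, mul_one]
  -- the constant of the geodesic flow
  have hg1 : ((dUT E M).prod (Dif.lin ℝ)).Map (dM E M) (gg (po e Y) ε Hp) :=
    gg_map (map_po F hY.fld) p1 p2
  have hg2 : ((dUT E M).prod (Dif.lin ℝ)).Map (dM E M) (gg (po e fun v => -Y v) ε Hm) :=
    gg_map (map_po F (IsFld.neg hY.fld)) q1 q2
  have h : Two (dUT E M) (dM E M) (2 * D) D (phi F) foot (gg (po e Y) ε Hp)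
      (gg (po e fun v => -Y v) ε Hm) :=
    { flow := isFlow_phi F hD hB hdiam
      mf := map_foot
      mp := hg1
      mm := hg2
      p0 := fun v => by rw [gg_zero, po_zero F]
      p1 := fun v t => by rw [gg_one, gg_one, p3]
      m0 := fun v => by rw [gg_zero, po_zero F]
      m1 := fun v t => by rw [gg_one, gg_one, q3] }
  refine ⟨gg (po e Y) ε Hp, gg (po e fun v => -Y v) ε Hm, hg1, hg2, h.p0, h.p1, h.m0, h.m1, ?_⟩
  have k1 := J_bet h (WF.sConn_UT F h2) hO hO2 v₀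
  have k2 := ptv_J_bet h Om (at_const_UT v₀ (0 : ℝ)) (at_const_UT v₁ (0 : ℝ))
  have k3 : WF.ptv (J (phi F) h.flow.map (2 * D) (bet h Om)) v₀ = -κ := by
    rw [k2]
    refine (congrArg₂ (fun a b : ℝ => -a + b) a₁ (a₂.trans (congrArg Neg.neg c₂))).trans ?_
    rw [hκ, neg_neg, neg_neg, ← sub_eq_add_neg]
    rfl
  rw [k3] at k1
  exact k1

/-- the integrals over the circles of the section, from the period of the rotation flow -/
theorem kap_of_J (F : Facts e) {D : ℝ} (hD : 0 < D) (hB : InjGE e D)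
    (hdiam : ∀ p q : M, dist p q ≤ D) {B : Form (dUT E M)} {κ : ℝ}
    {w : UT E M → UT E M} (hw : IsSec e D w)
    (hJ : J hw.rot (hw.map_rot F hD hB hdiam) (2 * π) B = κ • 1) (v : UT E M) :
    WR.kap F hD hB hdiam B (hw.gr v) = κ := by
  have h1 : J hw.rot (hw.map_rot F hD hB hdiam) (2 * π) B =
      Form.pull hw.gr hw.map_gr (kf F hD hB hdiam B) := by
    rw [kf, pull_KT hw.map_gr, WR.pull_pull (map_prodId hw.map_gr) (map_cv F hD hB hdiam)
      (hw.map_rot F hD hB hdiam) (fun _ => rfl)]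
    rfl
  have h2 : WF.ptv (Form.pull hw.gr hw.map_gr (kf F hD hB hdiam B)) v =
      WF.ptv (κ • (1 : Form (dUT E M))) v := congrArg (fun a => WF.ptv a v) (h1.symm.trans hJ)
  rw [ptv_pull hw.map_gr _ (at_const_UT v (0 : ℝ))] at h2
  refine Eq.trans h2 ?_
  rw [WF.ptv, Form.smul_val, Form.one_val (at_const_UT v (0 : ℝ)), map_smul, map_one,
    smul_eq_mul, mul_one]

/-- **Block D4.** The period of `beta` along the geodesic flow is minus the period of `B₀` along
the rotation flow. -/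
theorem d4 (F : Facts e) {D : ℝ} (hD : 0 < D) (hB : InjGE e D)
    (hdiam : ∀ p q : M, dist p q ≤ D) (h2 : 2 ≤ finrank ℝ E)
    (hP : ∀ x y : M, dist x y = D → finrank ℝ (H775.Pl e D x y) = 2) {w : UT E M → UT E M}
    (hw : IsSec e D w) {Y : UT E M → E} {ε₀ : ℝ} (hY : Push F D w Y ε₀) {Om : Form (dM E M)}
    (hO : Om.d = 0) (hO2 : Form.IsDeg 2 Om) {κ : ℝ} (hκ : |κ| = 2 * π)
    (hJ0 : J hw.rot (hw.map_rot F hD hB hdiam) (2 * π)
      (KT D (Form.pull (gm e) (map_gm F) Om)) = κ • 1) (v₀ : UT E M) :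
    ∃ (gp gm' : UT E M × ℝ → M) (hgp : ((dUT E M).prod (Dif.lin ℝ)).Map (dM E M) gp)
      (hgm : ((dUT E M).prod (Dif.lin ℝ)).Map (dM E M) gm') (κ' : ℝ),
      (∀ v, gp (v, 0) = foot v) ∧ (∀ v t, gp (phi F (v, t), 1) = gp (v, 1)) ∧
      (∀ v, gm' (v, 0) = foot v) ∧ (∀ v t, gm' (phi F (v, t), 1) = gm' (v, 1)) ∧
      |κ'| = 2 * π ∧
      J (phi F) (map_phi F) (2 * D) (Form.K (Form.pull gp hgp Om) -
        Form.pull (fun v => phi F (v, D)) (H584.map_at (map_phi F) D)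
          (Form.K (Form.pull gm' hgm Om))) = κ' • 1 := by
  have hκ0 : κ ≠ 0 := by
    rintro rfl
    rw [abs_zero] at hκ
    have := Real.pi_pos
    linarith
  have hφ : ∀ v, w (phi F (v, D)) = ng (phi F (w v, D)) :=
    hw.w_phi' F hD hB hdiam hP Om hκ0 (kap_of_J F hD hB hdiam hw hJ0)
  obtain ⟨gp, gm', hgp, hgm, a1, a2, a3, a4, a5⟩ := exists_two F hD hB hdiam h2 hw hφ hY hO
    (isDeg_bridge hO2) hJ0 v₀
  exact ⟨gp, gm', hgp, hgm, -κ, a1, a2, a3, a4, by rw [abs_neg, hκ], a5⟩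

end

end Vale.Agent.P231.WD
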