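import Mathlib

/-!
# P231, block D4.1: moving the apex of a cone over a pushed-off closed geodesic
-/

open Set Filter Topology

namespace Vale.Agent.P231.WD

section Near

/-- The first variation near a cut pair: the arithmetic. -/
theorem apex_arith {d D s ε τ a b η E q : ℝ} (ha : 0 < a) (ha1 : a ≤ 1) (hb : 1 ≤ b)
    (hs : 0 ≤ s) (hε : 0 < ε) (hE : E = s + ε + |τ|) (hη : η = a / (8 * (a + 2 * b)))
    (h1 : d ≤ D - s - a * ε + η * E + q)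
    (h2 : d ≤ D - |τ| + b * ε + η * E + q) (hq : q ≤ η * E) : d < D := by
  have hab : 0 < a + 2 * b := by positivity
  obtain ⟨μ, hμ⟩ : ∃ μ : ℝ, μ = a / (2 * (a + 2 * b)) := ⟨_, rfl⟩
  have hμ0 : 0 < μ := by rw [hμ]; positivity
  have hημ : η = μ / 4 := by
    rw [hη, hμ]
    field_simp
    norm_num
  have hμab : μ * (a + 2 * b) = a / 2 := by
    rw [hμ]
    field_simp
  have hμa : μ ≤ a / 2 := by nlinarith
  have hτ : 0 ≤ |τ| := abs_nonneg _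
  have hE0 : 0 < E := by rw [hE]; linarith
  -- convex combination
  have e1 : (1 - μ) * d ≤ (1 - μ) * (D - s - a * ε + 2 * η * E) :=
    mul_le_mul_of_nonneg_left (by linarith) (by linarith)
  have e2 : μ * d ≤ μ * (D - |τ| + b * ε + 2 * η * E) :=
    mul_le_mul_of_nonneg_left (by linarith) hμ0.le
  have h3 : d ≤ D - (1 - μ) * s - ((1 - μ) * a - μ * b) * ε - μ * |τ| + 2 * η * E := by
    linarith
  have h4 : a / 2 ≤ (1 - μ) * a - μ * b := by nlinarith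
  have h6 : μ * s ≤ (1 - μ) * s := mul_le_mul_of_nonneg_right (by linarith) hs
  have h7 : μ * ε ≤ ((1 - μ) * a - μ * b) * ε :=
    mul_le_mul_of_nonneg_right (by linarith) hε.le
  have h8 : 2 * η * E = μ * E / 2 := by rw [hημ]; ring
  have h9 : 0 < μ * E := by positivity
  have h10 : μ * E = μ * s + μ * ε + μ * |τ| := by rw [hE]; ring
  linarith

variable {X : Type*} [PseudoMetricSpace X]
  {V : Type*} [NormedAddCommGroup V] [InnerProductSpace ℝ V]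
  {V' : Type*} [NormedAddCommGroup V'] [InnerProductSpace ℝ V']

/-- the quadratic terms -/
theorem apex_quad {K η B r E n1 n2 : ℝ} (hη0 : 0 < η) (hE0 : 0 < E)
    (hr : r = η / (1 + |K| * (2 * B ^ 2))) (hEr : E ≤ r) (h1 : 0 ≤ n1) (h2 : 0 ≤ n2)
    (hn1 : n1 ≤ B * E) (hn2 : n2 ≤ B * E) : K * (n1 ^ 2 + n2 ^ 2) ≤ η * E := by
  have e1 : n1 ^ 2 ≤ (B * E) ^ 2 := pow_le_pow_left₀ h1 hn1 2
  have e2 : n2 ^ 2 ≤ (B * E) ^ 2 := pow_le_pow_left₀ h2 hn2 2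
  have e3 : K * (n1 ^ 2 + n2 ^ 2) ≤ |K| * (2 * (B * E) ^ 2) := by
    refine (mul_le_mul_of_nonneg_right (le_abs_self K) (by positivity)).trans ?_
    exact mul_le_mul_of_nonneg_left (by linarith) (abs_nonneg K)
  have e4 : |K| * (2 * (B * E) ^ 2) = (|K| * (2 * B ^ 2) * E) * E := by ring
  have e6 : 0 ≤ |K| * (2 * B ^ 2) := by positivity
  have e5 : |K| * (2 * B ^ 2) * E ≤ η := by
    have e7 : |K| * (2 * B ^ 2) * E ≤ |K| * (2 * B ^ 2) * r := mul_le_mul_of_nonneg_left hEr e6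
    refine e7.trans ?_
    rw [hr, ← mul_div_assoc, div_le_iff₀ (by positivity)]
    have e8 : η * (1 + |K| * (2 * B ^ 2)) = η + |K| * (2 * B ^ 2) * η := by ring
    rw [e8]
    linarith
  rw [e4] at e3
  exact e3.trans (mul_le_mul_of_nonneg_right e5 hE0.le)

/-- the pointwise estimate -/
theorem apex_point {D K d a b η ρ B r E s ε τ : ℝ} {v w y : V}
    {v' w' y' R ζ : V'} {ξ : V} (hw : ‖w‖ = 1) (hvw : inner ℝ w v = 0) (hv' : ‖v'‖ = 1)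
    (hvw' : inner ℝ v' w' = 0) (ha0 : 0 < a) (ha1 : a ≤ 1) (haa : a ≤ inner ℝ y w - inner ℝ y' w')
    (hb : b = 1 + ‖y‖ * ‖v‖ + ‖y'‖) (hη : η = a / (8 * (a + 2 * b)))
    (hρ : ρ = η / (2 * (1 + ‖w'‖))) (hB : B = 1 + ‖y‖ + ‖y'‖ + ρ)
    (hr : r = η / (1 + |K| * (2 * B ^ 2))) (hs : 0 ≤ s) (hε : 0 < ε) (hEE : E = s + ε + |τ|)
    (hEr : E ≤ r) (hRn : ‖R‖ ≤ ρ * E) (hξe : ξ = s • w + ε • y)
    (hζe : ζ = τ • v' + ε • y' + R)
    (h1 : d ≤ D - inner ℝ ξ w + inner ℝ ζ w' + K * (‖ξ‖ ^ 2 + ‖ζ‖ ^ 2))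
    (h2 : d ≤ D - inner ℝ ξ v + inner ℝ ζ v' + K * (‖ξ‖ ^ 2 + ‖ζ‖ ^ 2))
    (h3 : d ≤ D + inner ℝ ξ v - inner ℝ ζ v' + K * (‖ξ‖ ^ 2 + ‖ζ‖ ^ 2)) : d < D := by
  have hy0 := norm_nonneg y
  have hy'0 := norm_nonneg y'
  have hyv0 := mul_nonneg (norm_nonneg y) (norm_nonneg v)
  have hb1 : 1 ≤ b := by rw [hb]; linarith
  have hη0 : 0 < η := by rw [hη]; positivity
  have hw'0 : 0 ≤ ‖w'‖ := norm_nonneg _
  have hρ0 : 0 < ρ := by rw [hρ]; positivity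
  have hτ0 : 0 ≤ |τ| := abs_nonneg _
  have hE0 : 0 < E := by rw [hEE]; linarith
  have hn1 : ‖ξ‖ ≤ B * E := by
    rw [hξe]
    have e0 : ‖s • w + ε • y‖ ≤ s + ε * ‖y‖ := by
      refine (norm_add_le _ _).trans ?_
      rw [norm_smul, norm_smul, hw, Real.norm_of_nonneg hs, Real.norm_of_nonneg hε.le, mul_one]
    have e1 : s ≤ E := by rw [hEE]; linarith
    have e2 : ε * ‖y‖ ≤ ‖y‖ * E := by
      rw [mul_comm]
      exact mul_le_mul_of_nonneg_left (by rw [hEE]; linarith) (norm_nonneg _)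
    have e3 : 0 ≤ ‖y'‖ * E := by positivity
    have e4 : 0 ≤ ρ * E := by positivity
    have e5 : B * E = E + ‖y‖ * E + ‖y'‖ * E + ρ * E := by rw [hB]; ring
    linarith
  have hn2 : ‖ζ‖ ≤ B * E := by
    rw [hζe]
    have e0 : ‖τ • v' + ε • y' + R‖ ≤ |τ| + ε * ‖y'‖ + ρ * E := by
      have e1 := norm_add_le (τ • v' + ε • y') R
      have e2 := norm_add_le (τ • v') (ε • y')
      rw [norm_smul, norm_smul, hv', Real.norm_of_nonneg hε.le, mul_one, Real.norm_eq_abs] at e2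
      linarith
    have e1 : |τ| ≤ E := by rw [hEE]; linarith
    have e2 : ε * ‖y'‖ ≤ ‖y'‖ * E := by
      rw [mul_comm]
      exact mul_le_mul_of_nonneg_left (by rw [hEE]; linarith) (norm_nonneg _)
    have e3 : 0 ≤ ‖y‖ * E := by positivity
    have e5 : B * E = E + ‖y‖ * E + ‖y'‖ * E + ρ * E := by rw [hB]; ring
    linarith
  have hq : K * (‖ξ‖ ^ 2 + ‖ζ‖ ^ 2) ≤ η * E :=
    apex_quad hη0 hE0 hr hEr (norm_nonneg _) (norm_nonneg _) hn1 hn2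
  have hρw : ρ * (1 + ‖w'‖) = η / 2 := by
    rw [hρ]
    field_simp
  have hρw' : ρ * E + ρ * ‖w'‖ * E = η * E / 2 := by
    have : (ρ * (1 + ‖w'‖)) * E = η / 2 * E := by rw [hρw]
    linarith
  have hρw0 : 0 ≤ ρ * ‖w'‖ * E := by positivity
  have hρE0 : 0 ≤ ρ * E := by positivity
  have hηE0 : 0 ≤ η * E := by positivity
  have hRw : |inner ℝ R w'| ≤ η * E := by
    refine (abs_real_inner_le_norm R w').trans ?_
    have e1 : ‖R‖ * ‖w'‖ ≤ ρ * E * ‖w'‖ := mul_le_mul_of_nonneg_right hRn hw'0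
    linarith
  have hRv : |inner ℝ R v'| ≤ η * E := by
    refine (abs_real_inner_le_norm R v').trans ?_
    rw [hv', mul_one]
    linarith
  -- the two estimates
  have i1 : inner ℝ ξ w = s + ε * inner ℝ y w := by
    rw [hξe, inner_add_left, real_inner_smul_left, real_inner_smul_left,
      real_inner_self_eq_norm_sq, hw]
    ring
  have i2 : inner ℝ ζ w' = ε * inner ℝ y' w' + inner ℝ R w' := by
    rw [hζe, inner_add_left, inner_add_left, real_inner_smul_left, real_inner_smul_left, hvw']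
    ring
  have i3 : inner ℝ ξ v = ε * inner ℝ y v := by
    rw [hξe, inner_add_left, real_inner_smul_left, real_inner_smul_left, hvw]
    ring
  have i4 : inner ℝ ζ v' = τ + ε * inner ℝ y' v' + inner ℝ R v' := by
    rw [hζe, inner_add_left, inner_add_left, real_inner_smul_left, real_inner_smul_left,
      real_inner_self_eq_norm_sq, hv']
    ring
  rw [i1, i2] at h1
  rw [i3, i4] at h2 h3
  have hyv := abs_real_inner_le_norm y v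
  have hyv' := abs_real_inner_le_norm y' v'
  rw [hv', mul_one] at hyv'
  refine apex_arith (q := K * (‖ξ‖ ^ 2 + ‖ζ‖ ^ 2)) ha0 ha1 hb1 hs hε hEE hη ?_ ?_ hq
  · have e1 := (abs_le.1 hRw).2
    have e2 : a * ε ≤ (inner ℝ y w - inner ℝ y' w') * ε := mul_le_mul_of_nonneg_right haa hε.le
    have e3 : (inner ℝ y w - inner ℝ y' w') * ε = ε * inner ℝ y w - ε * inner ℝ y' w' := by ring
    linarith
  · have m1 := (abs_le.1 hRv).1
    have m2 := (abs_le.1 hRv).2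
    have n1 := (abs_le.1 hyv).1
    have n2 := (abs_le.1 hyv).2
    have o1 := (abs_le.1 hyv').1
    have o2 := (abs_le.1 hyv').2
    have hbε : (‖y‖ * ‖v‖ + ‖y'‖) * ε ≤ b * ε := mul_le_mul_of_nonneg_right
      (by rw [hb]; linarith) hε.le
    rcases le_total 0 τ with hτ | hτ
    · rw [abs_of_nonneg hτ]
      have e1 : ε * inner ℝ y v ≤ ε * (‖y‖ * ‖v‖) := mul_le_mul_of_nonneg_left n2 hε.le
      have e2 : ε * (-‖y'‖) ≤ ε * inner ℝ y' v' := mul_le_mul_of_nonneg_left o1 hε.le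
      linarith
    · rw [abs_of_nonpos hτ]
      have e1 : ε * (-(‖y‖ * ‖v‖)) ≤ ε * inner ℝ y v := mul_le_mul_of_nonneg_left n1 hε.le
      have e2 : ε * inner ℝ y' v' ≤ ε * ‖y'‖ := mul_le_mul_of_nonneg_left o2 hε.le
      linarith

/-- The first variation near a cut pair. Near the pair `(x, x')` of points at distance `D` the
distance of the moved apex `ex (s w + ε y)` and the point `ex' (ζ (τ, ε))` of the moved geodesic is
less than `D`, for `s ≥ 0`, `ε > 0`. -/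
theorem apex_near {ex : V → X} {ex' : V' → X} {D K δ : ℝ} (hδ : 0 < δ) {v w y : V}
    {v' w' y' : V'} (hw : ‖w‖ = 1) (hvw : inner ℝ w v = 0) (hv' : ‖v'‖ = 1)
    (hvw' : inner ℝ v' w' = 0) (ha : 0 < inner ℝ y w - inner ℝ y' w')
    (h1 : ∀ ξ ζ, ‖ξ‖ ≤ δ → ‖ζ‖ ≤ δ →
      dist (ex ξ) (ex' ζ) ≤ D - inner ℝ ξ w + inner ℝ ζ w' + K * (‖ξ‖ ^ 2 + ‖ζ‖ ^ 2))
    (h2 : ∀ ξ ζ, ‖ξ‖ ≤ δ → ‖ζ‖ ≤ δ →
      dist (ex ξ) (ex' ζ) ≤ D - inner ℝ ξ v + inner ℝ ζ v' + K * (‖ξ‖ ^ 2 + ‖ζ‖ ^ 2))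
    (h3 : ∀ ξ ζ, ‖ξ‖ ≤ δ → ‖ζ‖ ≤ δ →
      dist (ex ξ) (ex' ζ) ≤ D + inner ℝ ξ v - inner ℝ ζ v' + K * (‖ξ‖ ^ 2 + ‖ζ‖ ^ 2))
    {ζ : ℝ × ℝ → V'} {L : ℝ × ℝ →L[ℝ] V'} (hζ : HasFDerivAt ζ L 0) (hζ0 : ζ 0 = 0)
    (hL : ∀ τ ε : ℝ, L (τ, ε) = τ • v' + ε • y') :
    ∀ᶠ p : ℝ × ℝ × ℝ in 𝓝 0, 0 ≤ p.2.1 → 0 < p.1 →
      dist (ex (p.2.1 • w + p.1 • y)) (ex' (ζ (p.2.2, p.1))) < D := by
  -- normalise the constants
  obtain ⟨a, ha0, ha1, haa⟩ : ∃ a : ℝ, 0 < a ∧ a ≤ 1 ∧ a ≤ inner ℝ y w - inner ℝ y' w' :=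
    ⟨min 1 (inner ℝ y w - inner ℝ y' w'), lt_min one_pos ha, min_le_left _ _, min_le_right _ _⟩
  obtain ⟨b, hb⟩ : ∃ b : ℝ, b = 1 + ‖y‖ * ‖v‖ + ‖y'‖ := ⟨_, rfl⟩
  have hb1 : 1 ≤ b := by
    rw [hb]
    have := mul_nonneg (norm_nonneg y) (norm_nonneg v)
    have := norm_nonneg y'
    linarith
  obtain ⟨η, hη⟩ : ∃ η : ℝ, η = a / (8 * (a + 2 * b)) := ⟨_, rfl⟩
  have hη0 : 0 < η := by rw [hη]; positivity
  obtain ⟨ρ, hρ⟩ : ∃ ρ : ℝ, ρ = η / (2 * (1 + ‖w'‖)) := ⟨_, rfl⟩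
  have hρ0 : 0 < ρ := by
    have hw'0 : 0 ≤ ‖w'‖ := norm_nonneg _
    rw [hρ]; positivity
  have hc0 : Tendsto (fun p : ℝ × ℝ × ℝ => (p.2.2, p.1)) (𝓝 0) (𝓝 (0 : ℝ × ℝ)) := by
    have hc : Continuous fun p : ℝ × ℝ × ℝ => (p.2.2, p.1) := by fun_prop
    exact hc.tendsto' 0 0 rfl
  -- remainder estimate
  have hR : ∀ᶠ p : ℝ × ℝ × ℝ in 𝓝 0, ‖ζ (p.2.2, p.1) - L (p.2.2, p.1)‖ ≤
      ρ * ‖(p.2.2, p.1)‖ := by
    have h0 : ∀ᶠ q : ℝ × ℝ in 𝓝 0, ‖ζ q - L q‖ ≤ ρ * ‖q‖ := by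
      have := hζ.isLittleO.def hρ0
      filter_upwards [this] with q hq
      simpa [hζ0] using hq
    exact hc0.eventually h0
  -- smallness
  have hsm : ∀ᶠ p : ℝ × ℝ × ℝ in 𝓝 0, ‖p.2.1 • w + p.1 • y‖ < δ := by
    have hc : Continuous fun p : ℝ × ℝ × ℝ => ‖p.2.1 • w + p.1 • y‖ := by fun_prop
    exact (hc.tendsto' 0 0 (by simp)).eventually_lt_const hδ
  have hsm' : ∀ᶠ p : ℝ × ℝ × ℝ in 𝓝 0, ‖ζ (p.2.2, p.1)‖ < δ := by
    have h0 : Tendsto ζ (𝓝 0) (𝓝 0) := by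
      have := hζ.continuousAt.tendsto
      rwa [hζ0] at this
    have h1 := (h0.comp hc0).norm
    rw [norm_zero] at h1
    exact h1.eventually_lt_const hδ
  -- a bound for the quadratic term
  obtain ⟨B, hB⟩ : ∃ B : ℝ, B = 1 + ‖y‖ + ‖y'‖ + ρ := ⟨_, rfl⟩
  obtain ⟨r, hr⟩ : ∃ r : ℝ, r = η / (1 + |K| * (2 * B ^ 2)) := ⟨_, rfl⟩
  have hr0 : 0 < r := by rw [hr]; positivity
  have hE : ∀ᶠ p : ℝ × ℝ × ℝ in 𝓝 0, |p.2.1| + |p.1| + |p.2.2| < r := by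
    have hc : Continuous fun p : ℝ × ℝ × ℝ => |p.2.1| + |p.1| + |p.2.2| := by fun_prop
    exact (hc.tendsto' 0 0 (by simp)).eventually_lt_const hr0
  filter_upwards [hR, hsm, hsm', hE] with p hp1 hp2 hp3 hp4 hs hε
  obtain ⟨ε, s, τ⟩ := p
  simp only at hp1 hp2 hp3 hp4 hs hε ⊢
  obtain ⟨E, hEE⟩ : ∃ E : ℝ, E = s + ε + |τ| := ⟨_, rfl⟩
  have hτ0 : 0 ≤ |τ| := abs_nonneg _
  have hEr : E ≤ r := by
    rw [abs_of_nonneg hs, abs_of_pos hε] at hp4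
    linarith
  have hnq : ‖(τ, ε)‖ ≤ E := by
    rw [Prod.norm_def, hEE]
    refine max_le ?_ ?_
    · change |τ| ≤ _; linarith
    · change |ε| ≤ _; rw [abs_of_pos hε]; linarith
  refine apex_point (R := ζ (τ, ε) - L (τ, ε)) (ξ := s • w + ε • y) (ζ := ζ (τ, ε)) hw hvw hv' hvw'
    ha0 ha1 haa hb hη hρ hB hr hs hε hEE hEr
    (hp1.trans (mul_le_mul_of_nonneg_left hnq hρ0.le)) rfl ?_ (h1 _ _ hp2.le hp3.le)
    (h2 _ _ hp2.le hp3.le) (h3 _ _ hp2.le hp3.le)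
  rw [← hL]
  abel

end Near

section Compact

variable {X : Type*} [PseudoMetricSpace X]

/-- The apex `Z s ε`, `0 ≤ s ≤ D/2`, stays at distance less than `D` from the loop `C · ε`. -/
theorem apex_compact {D T S : ℝ} (hT : 0 < T) {Z C : ℝ → ℝ → X} {t₀ : ℝ}
    (hZ : Continuous fun p : ℝ × ℝ => Z p.1 p.2) (hC : Continuous fun p : ℝ × ℝ => C p.1 p.2)
    (hper : ∀ t ε, C (t + T) ε = C t ε)
    (hnear : ∀ᶠ p : ℝ × ℝ × ℝ in 𝓝 (0, 0, t₀), 0 ≤ p.2.1 → 0 < p.1 →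
      dist (Z p.2.1 p.1) (C p.2.2 p.1) < D)
    (hfar0 : ∀ t ∈ Icc 0 T, t ≠ t₀ → dist (Z 0 0) (C t 0) < D)
    (hfar : ∀ s ∈ Ioc 0 S, ∀ t ∈ Icc 0 T, dist (Z s 0) (C t 0) < D) :
    ∃ ε₁ : ℝ, 0 < ε₁ ∧ ∀ ε ∈ Ioc 0 ε₁, ∀ s ∈ Icc 0 S, ∀ t, dist (Z s ε) (C t ε) < D := by
  have hK : IsCompact (Icc 0 S ×ˢ Icc 0 T) := isCompact_Icc.prod isCompact_Icc
  have hcont : Continuous fun p : ℝ × ℝ × ℝ => dist (Z p.2.1 p.1) (C p.2.2 p.1) := by
    have h1 : Continuous fun p : ℝ × ℝ × ℝ => Z p.2.1 p.1 :=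
      hZ.comp (by fun_prop : Continuous fun p : ℝ × ℝ × ℝ => (p.2.1, p.1))
    have h2 : Continuous fun p : ℝ × ℝ × ℝ => C p.2.2 p.1 :=
      hC.comp (by fun_prop : Continuous fun p : ℝ × ℝ × ℝ => (p.2.2, p.1))
    exact h1.dist h2
  have key : ∀ᶠ ε in 𝓝 (0 : ℝ), ∀ q ∈ Icc 0 S ×ˢ Icc 0 T,
      (fun (ε : ℝ) (q : ℝ × ℝ) => 0 ≤ q.1 → 0 < ε → dist (Z q.1 ε) (C q.2 ε) < D) ε q := by
    refine hK.eventually_forall_of_forall_eventually fun q hq => ?_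
    obtain ⟨s, t⟩ := q
    have hopen : dist (Z s 0) (C t 0) < D → ∀ᶠ z : ℝ × ℝ × ℝ in 𝓝 (0, (s, t)),
        0 ≤ z.2.1 → 0 < z.1 → dist (Z z.2.1 z.1) (C z.2.2 z.1) < D := fun h => by
      have := (hcont.tendsto ((0 : ℝ), s, t)).eventually_lt_const h
      filter_upwards [this] with z hz _ _ using hz
    rcases eq_or_lt_of_le hq.1.1 with h0 | h0
    · simp only at h0
      by_cases ht : t = t₀
      · rw [ht, ← h0]
        exact hnear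
      · refine hopen ?_
        rw [← h0]
        exact hfar0 t hq.2 ht
    · exact hopen (hfar s ⟨h0, hq.1.2⟩ t hq.2)
  obtain ⟨r, hr, hr'⟩ := Metric.eventually_nhds_iff.1 key
  refine ⟨r / 2, by positivity, fun ε hε s hs t => ?_⟩
  obtain ⟨n, hn⟩ : ∃ n : ℤ, t - n * T ∈ Icc 0 T := by
    refine ⟨⌊t / T⌋, ?_, ?_⟩
    · have := Int.floor_le (t / T)
      rw [le_div_iff₀ hT] at this
      linarith
    · have := (Int.lt_floor_add_one (t / T)).le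
      rw [div_le_iff₀ hT] at this
      linarith
  have h1 : C (t - n * T) ε = C t ε := by
    have hp : Function.Periodic (fun t => C t ε) T := fun t => hper t ε
    exact hp.sub_int_mul_eq n
  rw [← h1]
  refine hr' ?_ (s, t - n * T) ⟨hs, hn⟩ hs.1 hε.1
  rw [Real.dist_eq, sub_zero, abs_of_pos hε.1]
  linarith [hε.2]

/-- Points staying close for small `ε`. -/
theorem apex_compact' {D T : ℝ} (hT : 0 < T) {Z : ℝ → ℝ → X} {C : ℝ → ℝ → X}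
    (hZ : Continuous fun p : ℝ × ℝ => Z p.1 p.2) (hC : Continuous fun p : ℝ × ℝ => C p.1 p.2)
    (hper : ∀ t ε, C (t + T) ε = C t ε)
    (hfar : ∀ σ ∈ Icc (0 : ℝ) 1, ∀ t ∈ Icc 0 T, dist (Z σ 0) (C t 0) < D) :
    ∃ ε₁ : ℝ, 0 < ε₁ ∧ ∀ ε ∈ Icc 0 ε₁, ∀ σ ∈ Icc (0 : ℝ) 1, ∀ t, dist (Z σ ε) (C t ε) < D := by
  have hK : IsCompact (Icc (0 : ℝ) 1 ×ˢ Icc 0 T) := isCompact_Icc.prod isCompact_Icc
  have hcont : Continuous fun p : ℝ × ℝ × ℝ => dist (Z p.2.1 p.1) (C p.2.2 p.1) := by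
    have h1 : Continuous fun p : ℝ × ℝ × ℝ => Z p.2.1 p.1 :=
      hZ.comp (by fun_prop : Continuous fun p : ℝ × ℝ × ℝ => (p.2.1, p.1))
    have h2 : Continuous fun p : ℝ × ℝ × ℝ => C p.2.2 p.1 :=
      hC.comp (by fun_prop : Continuous fun p : ℝ × ℝ × ℝ => (p.2.2, p.1))
    exact h1.dist h2
  have key : ∀ᶠ ε in 𝓝 (0 : ℝ), ∀ q ∈ Icc (0 : ℝ) 1 ×ˢ Icc 0 T,
      (fun (ε : ℝ) (q : ℝ × ℝ) => dist (Z q.1 ε) (C q.2 ε) < D) ε q := by
    refine hK.eventually_forall_of_forall_eventually fun q hq => ?_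
    obtain ⟨s, t⟩ := q
    exact (hcont.tendsto ((0 : ℝ), s, t)).eventually_lt_const (hfar s hq.1 t hq.2)
  obtain ⟨r, hr, hr'⟩ := Metric.eventually_nhds_iff.1 key
  refine ⟨r / 2, by positivity, fun ε hε s hs t => ?_⟩
  obtain ⟨n, hn⟩ : ∃ n : ℤ, t - n * T ∈ Icc 0 T := by
    refine ⟨⌊t / T⌋, ?_, ?_⟩
    · have := Int.floor_le (t / T)
      rw [le_div_iff₀ hT] at this
      linarith
    · have := (Int.lt_floor_add_one (t / T)).le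
      rw [div_le_iff₀ hT] at this
      linarith
  have h1 : C (t - n * T) ε = C t ε := by
    have hp : Function.Periodic (fun t => C t ε) T := fun t => hper t ε
    exact hp.sub_int_mul_eq n
  rw [← h1]
  refine hr' ?_ (s, t - n * T) ⟨hs, hn⟩
  rw [Real.dist_eq, sub_zero, abs_of_nonneg hε.1]
  linarith [hε.2]

end Compact

end Vale.Agent.P231.WD
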