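import Vale.Agent.P231.WD.Eval
import Vale.Agent.P231.H584.Flow
import Vale.Agent.P231.WF.Conn
import Vale.Agent.P231.WR.Kap

/-!
# P231, block D4: the period of `beta` along the geodesic flow is constant
-/

set_option linter.unusedSectionVars false
set_option linter.unusedVariables false

open MeasureTheory Set Module Filter Topology
open scoped ContDiff

namespace Vale.Agent.P231.WD

open Vale.Agent.P231.Fm Vale.Agent.P231.W Vale.Agent.P231.WF

noncomputable section

variable {X Z : Type*} {D : Dif X} {D' : Dif Z}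

/-- the two push-offs (data of the blocks B and C) -/
structure Two (D : Dif X) (D' : Dif Z) (T c : ℝ) (Φ : X × ℝ → X) (f : X → Z)
    (gp gm : X × ℝ → Z) : Prop where
  flow : IsFlow D T Φ
  mf : D.Map D' f
  mp : (D.prod (Dif.lin ℝ)).Map D' gp
  mm : (D.prod (Dif.lin ℝ)).Map D' gm
  p0 : ∀ v, gp (v, 0) = f v
  p1 : ∀ v t, gp (Φ (v, t), 1) = gp (v, 1)
  m0 : ∀ v, gm (v, 0) = f v
  m1 : ∀ v t, gm (Φ (v, t), 1) = gm (v, 1)

variable {T c : ℝ} {Φ : X × ℝ → X} {f : X → Z} {gp gm : X × ℝ → Z}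

theorem K_pull_d (g : X × ℝ → Z) (hg : (D.prod (Dif.lin ℝ)).Map D' g) {Om : Form D'}
    (hO : Om.d = 0) {g0 g1 : X → Z} (h0 : D.Map D' g0) (h1 : D.Map D' g1)
    (e0 : ∀ v, g (v, 0) = g0 v) (e1 : ∀ v, g (v, 1) = g1 v) :
    (Form.K (Form.pull g hg Om)).d = Form.pull g1 h1 Om - Form.pull g0 h0 Om := by
  have h := H584.homotopy' (Form.pull g hg Om)
  rw [← Form.pull_d, hO] at h
  have hz : Form.pull g hg (0 : Form D') = 0 := map_zero (Form.pullA g hg)
  rw [hz, H584.K_zero, zero_add] at h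
  rw [← h]
  congr 1
  · exact H584.pull_pull (Form.map_slice 1) hg h1 e1 Om
  · exact H584.pull_pull (Form.map_slice 0) hg h0 e0 Om

theorem J_of_inv (hΦ : (D.prod (Dif.lin ℝ)).Map D Φ) (T : ℝ) {g : X → Z} (hg : D.Map D' g)
    (h : ∀ v t, g (Φ (v, t)) = g v) (Om : Form D') : J Φ hΦ T (Form.pull g hg Om) = 0 := by
  refine H584.J_of_basic T ?_
  rw [H584.basic_def]
  have h2 : (D.prod (Dif.lin ℝ)).Map D' (fun p => g p.1) := hg.comp Dif.map_fst
  exact (H584.pull_pull hΦ hg h2 (fun p => h p.1 p.2) Om).trans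
    (H584.pull_pull Dif.map_fst hg h2 (fun _ => rfl) Om).symm

/-- a shift along the flow does not change the period of a closed form -/
theorem J_shift (hfl : IsFlow D T Φ) (c : ℝ) {w : Form D} (hw : w.d = 0) :
    J Φ hfl.map T (Form.pull (fun v => Φ (v, c)) (H584.map_at hfl.map c) w) = J Φ hfl.map T w := by
  have h := H584.KT_homotopy c (Form.pull Φ hfl.map w)
  rw [H584.flow_at_zero hfl, H584.at_pull_of, ← Form.pull_d, hw] at h
  have hz : Form.pull Φ hfl.map (0 : Form D) = 0 := map_zero (Form.pullA Φ hfl.map)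
  rw [hz, H584.KT_zero, zero_add] at h
  have h2 := congrArg (J Φ hfl.map T) h
  rw [H584.J_sub, H584.J_d hfl, H584.J_KT hfl, Form.d_zero, neg_zero] at h2
  exact sub_eq_zero.1 h2

/-- the one form `beta`, restricted to time `1` -/
def bet (h : Two D D' T c Φ f gp gm) (Om : Form D') : Form D :=
  Form.K (Form.pull gp h.mp Om) -
    Form.pull (fun v => Φ (v, c)) (H584.map_at h.flow.map c) (Form.K (Form.pull gm h.mm Om))

theorem J_bet_closed (h : Two D D' T c Φ f gp gm) {Om : Form D'} (hO : Om.d = 0) :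
    (J Φ h.flow.map T (bet h Om)).d = 0 := by
  have hgp1 : D.Map D' (fun v => gp (v, 1)) := H584.map_at h.mp 1
  have hgm1 : D.Map D' (fun v => gm (v, 1)) := H584.map_at h.mm 1
  have hfd : (Form.pull f h.mf Om).d = 0 := by
    rw [← Form.pull_d, hO]
    exact map_zero (Form.pullA f h.mf)
  have e1 : (Form.K (Form.pull gp h.mp Om)).d =
      Form.pull (fun v => gp (v, 1)) hgp1 Om - Form.pull f h.mf Om :=
    K_pull_d gp h.mp hO h.mf hgp1 h.p0 (fun _ => rfl)
  have e2 : (Form.K (Form.pull gm h.mm Om)).d =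
      Form.pull (fun v => gm (v, 1)) hgm1 Om - Form.pull f h.mf Om :=
    K_pull_d gm h.mm hO h.mf hgm1 h.m0 (fun _ => rfl)
  have e3 : (Form.pull (fun v => Φ (v, c)) (H584.map_at h.flow.map c)
      (Form.K (Form.pull gm h.mm Om))).d = Form.pull (fun v => gm (v, 1)) hgm1 Om -
        Form.pull (fun v => Φ (v, c)) (H584.map_at h.flow.map c) (Form.pull f h.mf Om) := by
    rw [← Form.pull_d, e2]
    refine (map_sub (Form.pullA (fun v => Φ (v, c)) (H584.map_at h.flow.map c)) _ _).trans ?_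
    congr 1
    exact H584.pull_pull (H584.map_at h.flow.map c) hgm1 hgm1 (fun v => h.m1 v c) Om
  have e4 : (bet h Om).d = (Form.pull (fun v => gp (v, 1)) hgp1 Om - Form.pull f h.mf Om) -
      (Form.pull (fun v => gm (v, 1)) hgm1 Om -
        Form.pull (fun v => Φ (v, c)) (H584.map_at h.flow.map c) (Form.pull f h.mf Om)) := by
    rw [bet, Form.d_sub, e1, e3]
  have e5 := H584.J_d h.flow (bet h Om)
  rw [e4, H584.J_sub, H584.J_sub, H584.J_sub, J_of_inv h.flow.map T hgp1 h.p1,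
    J_of_inv h.flow.map T hgm1 h.m1, J_shift h.flow c hfd, sub_self] at e5
  rw [← neg_eq_zero]
  exact e5.symm

theorem J_bet_deg (h : Two D D' T c Φ f gp gm) {Om : Form D'} (h2 : WF.IsDeg Om 2) :
    WF.IsDeg (J Φ h.flow.map T (bet h Om)) 0 := by
  have hb : WF.IsDeg (bet h Om) 1 :=
    IsDeg.sub (IsDeg.K (IsDeg.pull h.mp h2))
      (IsDeg.pull (H584.map_at h.flow.map c) (IsDeg.K (IsDeg.pull h.mm h2)))
  have h3 : WF.IsDeg (Form.pull Φ h.flow.map (bet h Om)) 1 := IsDeg.pull h.flow.map hb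
  have h4 : WF.IsDeg (Form.pull (fun p : X × ℝ => (p.1, T * p.2)) (map_scale T)
    (Form.pull Φ h.flow.map (bet h Om))) 1 := IsDeg.pull (map_scale T) h3
  have h5 : WF.IsDeg (Form.K (Form.pull (fun p : X × ℝ => (p.1, T * p.2)) (map_scale T)
    (Form.pull Φ h.flow.map (bet h Om)))) 0 := IsDeg.K h4
  exact @h5

theorem J_bet (h : Two D D' T c Φ f gp gm) (hc : SConn D) {Om : Form D'} (hO : Om.d = 0)
    (h2 : WF.IsDeg Om 2) (v₀ : X) :
    J Φ h.flow.map T (bet h Om) = ptv (J Φ h.flow.map T (bet h Om)) v₀ • 1 := by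
  have h1 := const_of_closed hc (J_bet_deg h h2) (J_bet_closed h hO) v₀
  rw [Algebra.algebraMap_eq_smul_one] at h1
  exact h1

/-- naturality of the period under the time shift -/
theorem J_nat (hfl : IsFlow D T Φ) (c : ℝ) (w : Form D) :
    J Φ hfl.map T (Form.pull (fun v => Φ (v, c)) (H584.map_at hfl.map c) w) =
      Form.pull (fun v => Φ (v, c)) (H584.map_at hfl.map c) (J Φ hfl.map T w) := by
  have hk : (D.prod (Dif.lin ℝ)).Map D (fun p : X × ℝ => Φ (Φ (p.1, c), p.2)) :=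
    fun h => hfl.map (WR.map_prodId (H584.map_at hfl.map c) h)
  rw [H584.J_def, H584.J_def, WR.pull_KT]
  congr 1
  refine (H584.pull_pull hfl.map (H584.map_at hfl.map c) hk (fun p => ?_) w).trans
    (H584.pull_pull (WR.map_prodId (H584.map_at hfl.map c)) hfl.map hk (fun p => rfl) w).symm
  change Φ (Φ (p.1, p.2), c) = Φ (Φ (p.1, c), p.2)
  rw [hfl.add, hfl.add, add_comm]

theorem ptv_sub (a b : Form D) (x : X) : ptv (a - b) x = ptv a x - ptv b x := by
  rw [ptv, ptv, ptv, Form.sub_val, map_sub]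

/-- the value of the constant -/
theorem ptv_J_bet (h : Two D D' T c Φ f gp gm) (Om : Form D') {v₀ : X}
    (hv : D.At (fun _ : ℝ => v₀) 0) (hvc : D.At (fun _ : ℝ => Φ (v₀, c)) 0) :
    ptv (J Φ h.flow.map T (bet h Om)) v₀ =
      -I2 Om (fun p => gp (Φ (v₀, p.1), p.2)) 0 T 0 1 +
        I2 Om (fun p => gm (Φ (Φ (v₀, c), p.1), p.2)) 0 T 0 1 := by
  rw [bet, H584.J_sub, ptv_sub, J_nat h.flow, WR.ptv_pull _ _ hv]
  have e1 := aug_J_K Om h.mp h.flow.map T hv
  have e2 := aug_J_K Om h.mm h.flow.map T hvc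
  rw [ptv, ptv, e1, e2, sub_neg_eq_add]

end

end Vale.Agent.P231.WD
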