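import Vale.Agent.P231.Fm.Dif2

/-!
# P231, block D: integrals of the degree two part of a form over a plot of the plane
-/

set_option linter.unusedSectionVars false
set_option linter.unusedVariables false

open MeasureTheory Set Module Filter Topology
open scoped ContDiff

namespace Vale.Agent.P231.WD

open Vale.Agent.P231.Fm

variable {X : Type*} {D : Dif X}

/-- the value of the degree two part of `F` on the coordinate vectors of a plot of the plane -/
noncomputable def ev2 (F : Form D) (u : ℝ × ℝ → X) (p : ℝ × ℝ) : ℝ :=
  evalForm (F.val u p) ![((1 : ℝ), (0 : ℝ)), ((0 : ℝ), (1 : ℝ))]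

/-- the integral of the degree two part of `F` over a rectangle -/
noncomputable def I2 (F : Form D) (u : ℝ × ℝ → X) (a b c d : ℝ) : ℝ :=
  ∫ t in a..b, ∫ s in c..d, ev2 F u (t, s)

end Vale.Agent.P231.WD
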