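import Vale.Agent.P231.WD.Ev2
import Vale.Agent.P231.W.Abs

/-!
# P231, block D: evaluation of iterated orbit integrals
-/

set_option linter.unusedSectionVars false
set_option linter.unusedVariables false

open MeasureTheory Set Module Filter Topology
open scoped ContDiff

namespace Vale.Agent.P231.WD

open Vale.Agent.P231.Fm Vale.Agent.P231.W

variable {X Y : Type*} {D : Dif X} {D' : Dif Y}

section Ev2

theorem evalForm_swap {E : Type*} [NormedAddCommGroup E] [NormedSpace ℝ E]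
    [FiniteDimensional ℝ E] (w : Lam E) (a b : E) :
    evalForm w ![a, b] = -evalForm w ![b, a] := by
  have h := (evalForm (k := 2) w).map_swap ![b, a] (i := 0) (j := 1) (by decide)
  rw [← h]
  congr 1
  funext i
  fin_cases i <;> rfl

theorem evalForm_smul2 {E : Type*} [NormedAddCommGroup E] [NormedSpace ℝ E]
    [FiniteDimensional ℝ E] (w : Lam E) (α β : ℝ) (a b : E) :
    evalForm w ![α • a, β • b] = α * β * evalForm w ![a, b] := by
  rw [evalForm_apply, evalForm_apply, cont_succ, cont_succ, cont_succ, cont_succ]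
  simp only [Matrix.cons_val_zero, Matrix.cons_val_succ, cont_zero]
  rw [iprod_smul, map_smul, iprod_smul, map_smul, map_smul, smul_eq_mul, smul_eq_mul]
  ring

theorem evalForm_zero_left {E : Type*} [NormedAddCommGroup E] [NormedSpace ℝ E]
    [FiniteDimensional ℝ E] (w : Lam E) (b : E) : evalForm w ![0, b] = 0 := by
  have := evalForm_smul2 w 0 1 0 b
  simpa using this

theorem evalForm_zero_right {E : Type*} [NormedAddCommGroup E] [NormedSpace ℝ E]
    [FiniteDimensional ℝ E] (w : Lam E) (b : E) : evalForm w ![b, 0] = 0 := by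
  rw [evalForm_swap, evalForm_zero_left, neg_zero]

/-- change of variables in `ev2` -/
theorem ev2_comp (F : Form D) {E : Type} [NormedAddCommGroup E] [NormedSpace ℝ E]
    [FiniteDimensional ℝ E] {Q : E → X} {f : ℝ × ℝ → E} {L : ℝ × ℝ →L[ℝ] E} {p : ℝ × ℝ}
    (hQ : D.At Q (f p)) (hf : Sm f p) (hL : HasFDerivAt f L p) :
    ev2 F (Q ∘ f) p = evalForm (F.val Q (f p)) ![L (1, 0), L (0, 1)] := by
  rw [ev2, F.nat hQ hf, hL.fderiv, evalForm_pull]
  congr 1
  funext i
  fin_cases i <;> rfl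

/-- affine change of variables -/
theorem ev2_affine (F : Form D) {Q : ℝ × ℝ → X} {α β γ δ : ℝ} {p : ℝ × ℝ}
    (hQ : D.At Q (α * p.1 + β, γ * p.2 + δ)) :
    ev2 F (fun p => Q (α * p.1 + β, γ * p.2 + δ)) p =
      α * γ * ev2 F Q (α * p.1 + β, γ * p.2 + δ) := by
  let f : ℝ × ℝ → ℝ × ℝ := fun p => (α * p.1 + β, γ * p.2 + δ)
  have hf : ContDiff ℝ ∞ f := by fun_prop
  have hL : HasFDerivAt f ((α • ContinuousLinearMap.fst ℝ ℝ ℝ).prod
      (γ • ContinuousLinearMap.snd ℝ ℝ ℝ)) p := by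
    have h1 : HasFDerivAt (fun p : ℝ × ℝ => α * p.1 + β) (α • ContinuousLinearMap.fst ℝ ℝ ℝ) p :=
      ((hasFDerivAt_fst (𝕜 := ℝ) (p := p)).const_mul α).add_const β
    have h2 : HasFDerivAt (fun p : ℝ × ℝ => γ * p.2 + δ) (γ • ContinuousLinearMap.snd ℝ ℝ ℝ) p :=
      ((hasFDerivAt_snd (𝕜 := ℝ) (p := p)).const_mul γ).add_const δ
    exact h1.prodMk h2
  have h := ev2_comp F (Q := Q) (f := f) hQ (Sm.of_contDiff hf p) hL
  refine h.trans ?_
  have e1 : ((α • ContinuousLinearMap.fst ℝ ℝ ℝ).prod (γ • ContinuousLinearMap.snd ℝ ℝ ℝ))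
      ((1 : ℝ), (0 : ℝ)) = α • ((1 : ℝ), (0 : ℝ)) := by simp
  have e2 : ((α • ContinuousLinearMap.fst ℝ ℝ ℝ).prod (γ • ContinuousLinearMap.snd ℝ ℝ ℝ))
      ((0 : ℝ), (1 : ℝ)) = γ • ((0 : ℝ), (1 : ℝ)) := by simp
  rw [e1, e2, evalForm_smul2]
  rfl

/-- exchanging the variables -/
theorem ev2_swap (F : Form D) {Q : ℝ × ℝ → X} {p : ℝ × ℝ} (hQ : D.At Q (p.2, p.1)) :
    ev2 F (fun p => Q (p.2, p.1)) p = -ev2 F Q (p.2, p.1) := by
  let f : ℝ × ℝ → ℝ × ℝ := fun p => (p.2, p.1)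
  have hf : ContDiff ℝ ∞ f := by fun_prop
  have hL : HasFDerivAt f ((ContinuousLinearMap.snd ℝ ℝ ℝ).prod
      (ContinuousLinearMap.fst ℝ ℝ ℝ)) p :=
    (hasFDerivAt_snd (𝕜 := ℝ) (p := p)).prodMk (hasFDerivAt_fst (𝕜 := ℝ) (p := p))
  have h := ev2_comp F (Q := Q) (f := f) hQ (Sm.of_contDiff hf p) hL
  refine h.trans ?_
  rw [evalForm_swap]
  rfl

/-- a plot depending only on the first variable -/
theorem ev2_fst (F : Form D) {q : ℝ → X} {p : ℝ × ℝ} (hq : D.At q p.1) :
    ev2 F (fun p => q p.1) p = 0 := by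
  have h := ev2_comp F (Q := q) (f := Prod.fst) hq (Sm.of_contDiff contDiff_fst p)
    (hasFDerivAt_fst (𝕜 := ℝ) (p := p))
  refine h.trans ?_
  exact evalForm_zero_right _ _

/-- a plot depending only on the second variable -/
theorem ev2_snd (F : Form D) {q : ℝ → X} {p : ℝ × ℝ} (hq : D.At q p.2) :
    ev2 F (fun p => q p.2) p = 0 := by
  have h := ev2_comp F (Q := q) (f := Prod.snd) hq (Sm.of_contDiff contDiff_snd p)
    (hasFDerivAt_snd (𝕜 := ℝ) (p := p))
  refine h.trans ?_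
  exact evalForm_zero_left _ _

theorem ev2_congr (F : Form D) {Q Q' : ℝ × ℝ → X} {p : ℝ × ℝ} (hQ : D.At Q p)
    (h : Q =ᶠ[𝓝 p] Q') : ev2 F Q p = ev2 F Q' p := by
  rw [ev2, ev2, F.congr hQ h]

/-- `ev2` is continuous (smooth) along plots -/
theorem ev2_continuousAt (F : Form D) {Q : ℝ × ℝ → X} {p : ℝ × ℝ} (hQ : D.At Q p) :
    ContinuousAt (ev2 F Q) p := by
  have h1 : ContinuousAt (F.val Q) p := (F.smooth hQ).continuousAt
  exact (evalL ![((1 : ℝ), (0 : ℝ)), ((0 : ℝ), (1 : ℝ))]).continuous.continuousAt.comp h1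

end Ev2

section I2

variable {a b c d : ℝ}

theorem I2_congr (F : Form D) {Q Q' : ℝ × ℝ → X}
    (h : ∀ t ∈ uIcc a b, ∀ s ∈ uIcc c d, ev2 F Q (t, s) = ev2 F Q' (t, s)) :
    I2 F Q a b c d = I2 F Q' a b c d := by
  unfold I2
  refine intervalIntegral.integral_congr fun t ht => ?_
  exact intervalIntegral.integral_congr fun s hs => h t ht s hs

theorem I2_eq_zero (F : Form D) {Q : ℝ × ℝ → X}
    (h : ∀ t ∈ uIcc a b, ∀ s ∈ uIcc c d, ev2 F Q (t, s) = 0) :
    I2 F Q a b c d = 0 := by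
  unfold I2
  have : ∫ t in a..b, ∫ s in c..d, ev2 F Q (t, s) = ∫ t in a..b, (0 : ℝ) := by
    refine intervalIntegral.integral_congr fun t ht => ?_
    have : ∫ s in c..d, ev2 F Q (t, s) = ∫ s in c..d, (0 : ℝ) :=
      intervalIntegral.integral_congr fun s hs => h t ht s hs
    simpa using this
  simpa using this

/-- affine substitution -/
theorem I2_affine (F : Form D) {Q : ℝ × ℝ → X} {α β γ δ : ℝ}
    (hQ : ∀ t ∈ uIcc a b, ∀ s ∈ uIcc c d, D.At Q (α * t + β, γ * s + δ)) :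
    I2 F (fun p => Q (α * p.1 + β, γ * p.2 + δ)) a b c d =
      I2 F Q (α * a + β) (α * b + β) (γ * c + δ) (γ * d + δ) := by
  unfold I2
  have h1 : ∫ t in a..b, ∫ s in c..d, ev2 F (fun p => Q (α * p.1 + β, γ * p.2 + δ)) (t, s) =
      ∫ t in a..b, α • ∫ s in (γ * c + δ)..(γ * d + δ), ev2 F Q (α * t + β, s) := by
    refine intervalIntegral.integral_congr fun t ht => ?_
    rw [← intervalIntegral.smul_integral_comp_mul_add (fun s => ev2 F Q (α * t + β, s)) γ δ,
      smul_smul, ← intervalIntegral.integral_smul]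
    refine intervalIntegral.integral_congr fun s hs => ?_
    have := ev2_affine F (Q := Q) (α := α) (β := β) (γ := γ) (δ := δ) (p := (t, s))
      (hQ t ht s hs)
    change ev2 F (fun p => Q (α * p.1 + β, γ * p.2 + δ)) (t, s) = _
    rw [this]
    rfl
  rw [h1, intervalIntegral.integral_smul]
  exact intervalIntegral.smul_integral_comp_mul_add
    (fun t => ∫ s in (γ * c + δ)..(γ * d + δ), ev2 F Q (t, s)) α β

/-- integrability of partial integrals -/
theorem intervalIntegrable_inner {f : ℝ × ℝ → ℝ}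
    (h : ContinuousOn f (uIcc a b ×ˢ uIcc c d)) :
    IntervalIntegrable (fun t => ∫ s in c..d, f (t, s)) volume a b := by
  have h1 : IntegrableOn f (uIcc a b ×ˢ uIcc c d) (volume.prod volume) :=
    h.integrableOn_compact (isCompact_uIcc.prod isCompact_uIcc)
  have h2 : IntegrableOn f (uIoc a b ×ˢ uIoc c d) (volume.prod volume) :=
    h1.mono_set (prod_mono uIoc_subset_uIcc uIoc_subset_uIcc)
  have h3 : Integrable f ((volume.restrict (uIoc a b)).prod (volume.restrict (uIoc c d))) := by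
    rw [Measure.prod_restrict]
    exact h2
  have h4 := h3.integral_prod_left
  rw [intervalIntegrable_iff]
  have h5 : (fun t => ∫ s in c..d, f (t, s)) = fun t =>
      (if c ≤ d then 1 else -1 : ℝ) • ∫ s in uIoc c d, f (t, s) := by
    funext t
    exact intervalIntegral.intervalIntegral_eq_integral_uIoc _ _ _ _
  rw [h5]
  exact h4.smul (if c ≤ d then 1 else -1 : ℝ)

theorem ev2_continuousOn (F : Form D) {Q : ℝ × ℝ → X}
    (h : ∀ t ∈ uIcc a b, ∀ s ∈ uIcc c d, D.At Q (t, s)) :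
    ContinuousOn (ev2 F Q) (uIcc a b ×ˢ uIcc c d) :=
  fun p hp => (ev2_continuousAt F (h p.1 hp.1 p.2 hp.2)).continuousWithinAt

/-- splitting in the first variable -/
theorem I2_add_fst (F : Form D) {Q : ℝ × ℝ → X} {m : ℝ}
    (h : ∀ t ∈ uIcc a b, ∀ s ∈ uIcc c d, D.At Q (t, s)) (hm : m ∈ uIcc a b) :
    I2 F Q a m c d + I2 F Q m b c d = I2 F Q a b c d := by
  have h1 := intervalIntegrable_inner (ev2_continuousOn F h)
  unfold I2
  refine intervalIntegral.integral_add_adjacent_intervals ?_ ?_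
  · exact h1.mono_set (uIcc_subset_uIcc left_mem_uIcc hm)
  · exact h1.mono_set (uIcc_subset_uIcc hm right_mem_uIcc)

/-- splitting in the second variable -/
theorem I2_add_snd (F : Form D) {Q : ℝ × ℝ → X} {m : ℝ}
    (h : ∀ t ∈ uIcc a b, ∀ s ∈ uIcc c d, D.At Q (t, s)) (hm : m ∈ uIcc c d) :
    I2 F Q a b c m + I2 F Q a b m d = I2 F Q a b c d := by
  have h0 := ev2_continuousOn F h
  have h1 : IntervalIntegrable (fun t => ∫ s in c..m, ev2 F Q (t, s)) volume a b :=
    intervalIntegrable_inner (h0.mono (prod_mono Subset.rfl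
      (uIcc_subset_uIcc left_mem_uIcc hm)))
  have h2 : IntervalIntegrable (fun t => ∫ s in m..d, ev2 F Q (t, s)) volume a b :=
    intervalIntegrable_inner (h0.mono (prod_mono Subset.rfl
      (uIcc_subset_uIcc hm right_mem_uIcc)))
  unfold I2
  rw [← intervalIntegral.integral_add h1 h2]
  refine intervalIntegral.integral_congr fun t ht => ?_
  have h3 : ContinuousOn (fun s => ev2 F Q (t, s)) (uIcc c d) :=
    h0.comp (Continuous.prodMk_right t).continuousOn fun s hs => ⟨ht, hs⟩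
  refine intervalIntegral.integral_add_adjacent_intervals ?_ ?_
  · exact (h3.mono (uIcc_subset_uIcc left_mem_uIcc hm)).intervalIntegrable
  · exact (h3.mono (uIcc_subset_uIcc hm right_mem_uIcc)).intervalIntegrable

end I2

/-! ### iterated orbit integrals -/

section Orbit

variable {DM : Dif Y}

/-- the degree two coefficient of an iterated slice -/
theorem aug_at1_at1 {E : Type*} [NormedAddCommGroup E] [NormedSpace ℝ E]
    [FiniteDimensional ℝ E] (w : Lam ((E × ℝ) × ℝ)) :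
    aug (at1 (at1 w)) = evalForm w ![((0 : E × ℝ), (1 : ℝ)), (((0 : E), (1 : ℝ)), (0 : ℝ))] := by
  rw [at1_apply, at0_apply, aug_pull, at1_apply, at0_apply, pull_iprod, aug_pull]
  rfl

variable {Z : Type*} {DZ : Dif Z} {M : Type*} {dM : Dif M}

/-- **Evaluation of an iterated integral.** -/
theorem aug_K_K (F : Form dM) {g : Z × ℝ → M} (hg : (DZ.prod (Dif.lin ℝ)).Map dM g)
    {Ψ : X × ℝ → Z} (hΨ : (D.prod (Dif.lin ℝ)).Map DZ Ψ) {E : Type} [NormedAddCommGroup E]
    [NormedSpace ℝ E] [FiniteDimensional ℝ E] {u : E → X} {x : E} (hu : D.At u x) :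
    aug ((Form.K (Form.pull Ψ hΨ (Form.K (Form.pull g hg F)))).val u x) =
      -I2 F (fun p => g (Ψ (u x, p.1), p.2)) 0 1 0 1 := by
  set G : Form (DZ.prod (Dif.lin ℝ)) := Form.pull g hg F with hG
  set U : E × ℝ → Z := Ψ ∘ Form.cyl u with hU
  have hUat : ∀ t, DZ.At U (x, t) := fun t => hΨ (Form.cyl_at hu t)
  -- the outer integral
  obtain ⟨O, hO, hxO, _, hw⟩ := Form.cyl_smooth (Form.pull Ψ hΨ (Form.K G)) hu
  have hc : Continuous fun t : ℝ => at1 ((Form.pull Ψ hΨ (Form.K G)).val (Form.cyl u) (x, t)) :=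
    (at1 (E := E)).continuous.comp
      (hw.continuousOn.comp_continuous (Continuous.prodMk_right _) fun t => ⟨hxO, mem_univ _⟩)
  have h1 : aug ((Form.K (Form.pull Ψ hΨ (Form.K G))).val u x) =
      ∫ t in (0 : ℝ)..1, aug (at1 ((Form.pull Ψ hΨ (Form.K G)).val (Form.cyl u) (x, t))) := by
    rw [Form.K_val _ hu, kop]
    have := ContinuousLinearMap.intervalIntegral_comp_comm
      (LinearMap.toContinuousLinearMap (aug (E := E)).toLinearMap) (μ := volume)
      (hc.intervalIntegrable 0 1)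
    exact this.symm
  rw [h1]
  -- the inner integral
  have h2 : ∀ t, aug (at1 ((Form.pull Ψ hΨ (Form.K G)).val (Form.cyl u) (x, t))) =
      ∫ s in (0 : ℝ)..1, aug (at1 (at1 (G.val (Form.cyl U) ((x, t), s)))) := by
    intro t
    obtain ⟨O', hO', hxO', _, hw'⟩ := Form.cyl_smooth G (hUat t)
    have hc' : Continuous fun s : ℝ => at1 (G.val (Form.cyl U) ((x, t), s)) :=
      (at1 (E := E × ℝ)).continuous.comp
        (hw'.continuousOn.comp_continuous (Continuous.prodMk_right _) fun t => ⟨hxO', mem_univ _⟩)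
    rw [Form.pull_val _ _ (Form.cyl_at hu t), Form.K_val _ (hUat t), kop]
    have := ContinuousLinearMap.intervalIntegral_comp_comm
      ((LinearMap.toContinuousLinearMap (aug (E := E)).toLinearMap).comp (at1 (E := E)))
      (μ := volume) (hc'.intervalIntegrable 0 1)
    exact this.symm
  simp only [h2]
  rw [I2, ← intervalIntegral.integral_neg]
  refine intervalIntegral.integral_congr fun t _ => ?_
  change _ = -∫ s in (0 : ℝ)..1, ev2 F (fun p => g (Ψ (u x, p.1), p.2)) (t, s)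
  rw [← intervalIntegral.integral_neg]
  refine intervalIntegral.integral_congr fun s _ => ?_
  change aug (at1 (at1 (G.val (Form.cyl U) ((x, t), s)))) =
    -ev2 F (fun p => g (Ψ (u x, p.1), p.2)) (t, s)
  have hUs := Form.cyl_at (hUat t) s
  rw [aug_at1_at1, hG, Form.pull_val _ _ hUs, evalForm_swap]
  congr 1
  have hQ : dM.At (g ∘ Form.cyl U) ((x, t), s) := hg hUs
  let f : ℝ × ℝ → (E × ℝ) × ℝ := fun p => ((x, p.1), p.2)
  have hf : ContDiff ℝ ∞ f := by fun_prop
  have hL : HasFDerivAt f (((0 : ℝ × ℝ →L[ℝ] E).prod (ContinuousLinearMap.fst ℝ ℝ ℝ)).prod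
      (ContinuousLinearMap.snd ℝ ℝ ℝ)) (t, s) :=
    ((hasFDerivAt_const x (t, s)).prodMk (hasFDerivAt_fst (𝕜 := ℝ) (p := (t, s)))).prodMk
      (hasFDerivAt_snd (𝕜 := ℝ) (p := (t, s)))
  have h := ev2_comp F (Q := g ∘ Form.cyl U) (f := f) (p := (t, s)) hQ (Sm.of_contDiff hf _) hL
  refine Eq.trans ?_ h.symm
  simp only [f, ContinuousLinearMap.prod_apply, ContinuousLinearMap.coe_fst',
    ContinuousLinearMap.coe_snd', _root_.zero_apply]
  rfl

/-- The orbit integral of a time integral, evaluated at a point. -/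
theorem aug_J_KT (F : Form dM) {g : X × ℝ → M} (hg : (D.prod (Dif.lin ℝ)).Map dM g)
    {Φ : X × ℝ → X} (hΦ : (D.prod (Dif.lin ℝ)).Map D Φ) (c c' : ℝ) {E : Type}
    [NormedAddCommGroup E]
    [NormedSpace ℝ E] [FiniteDimensional ℝ E] {u : E → X} {x : E} (hu : D.At u x) :
    aug ((J Φ hΦ c (KT c' (Form.pull g hg F))).val u x) =
      -I2 F (fun p => g (Φ (u x, p.1), p.2)) 0 c 0 c' := by
  have hg' : (D.prod (Dif.lin ℝ)).Map dM (g ∘ fun p : X × ℝ => (p.1, c' * p.2)) :=
    hg.comp (map_scale c')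
  have hΨ : (D.prod (Dif.lin ℝ)).Map D (Φ ∘ fun p : X × ℝ => (p.1, c * p.2)) :=
    hΦ.comp (map_scale c)
  have h1 : J Φ hΦ c (KT c' (Form.pull g hg F)) =
      Form.K (Form.pull _ hΨ (Form.K (Form.pull _ hg' F))) := by
    change Form.K (Form.pull _ (map_scale c) (Form.pull Φ hΦ (Form.K (Form.pull _ (map_scale c')
      (Form.pull g hg F))))) = _
    rw [← Form.pull_comp (map_scale c') hg hg', ← Form.pull_comp (map_scale c) hΦ hΨ]
  rw [h1, aug_K_K F hg' hΨ hu]
  congr 1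
  have hplot : ∀ t s : ℝ, dM.At (fun p : ℝ × ℝ => g (Φ (u x, p.1), p.2)) (t, s) := by
    intro t s
    have h2 : D.At (fun _ : ℝ × ℝ => u x) (t, s) := Dif.At_const hu _
    have h3 : D.At (fun p : ℝ × ℝ => Φ (u x, p.1)) (t, s) :=
      hΦ (u := fun p : ℝ × ℝ => (u x, p.1)) ⟨h2, Sm.of_contDiff contDiff_fst _⟩
    exact hg (u := fun p : ℝ × ℝ => (Φ (u x, p.1), p.2)) ⟨h3, Sm.of_contDiff contDiff_snd _⟩
  have h2 := I2_affine F (Q := fun p : ℝ × ℝ => g (Φ (u x, p.1), p.2)) (a := 0) (b := 1)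
    (c := 0) (d := 1) (α := c) (β := 0) (γ := c') (δ := 0) (fun t _ s _ => hplot _ _)
  simp only [add_zero, mul_zero, mul_one] at h2
  exact h2

/-- The same for the homotopy operator `K` (time interval `[0, 1]`). -/
theorem aug_J_K (F : Form dM) {g : X × ℝ → M} (hg : (D.prod (Dif.lin ℝ)).Map dM g)
    {Φ : X × ℝ → X} (hΦ : (D.prod (Dif.lin ℝ)).Map D Φ) (c : ℝ) {E : Type}
    [NormedAddCommGroup E]
    [NormedSpace ℝ E] [FiniteDimensional ℝ E] {u : E → X} {x : E} (hu : D.At u x) :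
    aug ((J Φ hΦ c (Form.K (Form.pull g hg F))).val u x) =
      -I2 F (fun p => g (Φ (u x, p.1), p.2)) 0 c 0 1 := by
  have h1 : Form.K (Form.pull g hg F) = KT 1 (Form.pull g hg F) := by
    rw [KT]
    congr 1
    have h2 : (fun p : X × ℝ => (p.1, (1 : ℝ) * p.2)) = id := by
      funext p
      simp
    have h3 : (D.prod (Dif.lin ℝ)).Map (D.prod (Dif.lin ℝ)) (id : X × ℝ → X × ℝ) := Dif.map_id
    rw [Form.pull_congr (map_scale 1) h3 h2, Form.pull_id]
  rw [h1]
  exact aug_J_KT F hg hΦ c 1 hu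

end Orbit

end Vale.Agent.P231.WD
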