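import Vale.Agent.P231.WD.Cone

/-!
# P231, block D4.2: the integral over a sphere as a difference of cone integrals
-/

set_option linter.unusedSectionVars false
set_option linter.unusedVariables false

open MeasureTheory Set Module Filter Topology
open scoped ContDiff Real

namespace Vale.Agent.P231.WD

open Vale.Agent.P231.Fm Vale.Agent.P231.H766

variable {M : Type*} [MetricSpace M] {DM : Dif M} {D : ℝ}

/-- **Stokes for the join of a point and a lune.** -/
theorem hemi_lune (G : Geo DM D) {F : Form DM} (hF : F.d = 0) {z x x' : M}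
    (hz : Pt DM z) {S : ℝ × ℝ → M} (hS : ∀ p, DM.At S p) {T θ₁ θ₂ : ℝ}
    (hT : 0 ≤ T) (hθ : θ₁ ≤ θ₂) (h0 : ∀ θ, S (θ, 0) = x) (h1 : ∀ θ, S (θ, T) = x')
    (hball : ∀ θ ∈ Icc θ₁ θ₂, ∀ t ∈ Icc 0 T, dist z (S (θ, t)) < D) :
    I2 F S θ₁ θ₂ 0 T =
      cone G F z (fun t => S (θ₁, t)) 0 T - cone G F z (fun t => S (θ₂, t)) 0 T := by
  have hx : dist z x < D := by
    have := hball θ₁ (left_mem_Icc.2 hθ) 0 (left_mem_Icc.2 hT)
    rwa [h0] at this
  have hx' : dist z x' < D := by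
    have := hball θ₁ (left_mem_Icc.2 hθ) T (right_mem_Icc.2 hT)
    rwa [h1] at this
  have px : Pt DM x := by
    have := Pt.of_at (hS (θ₁, 0))
    rwa [h0] at this
  have px' : Pt DM x' := by
    have := Pt.of_at (hS (θ₁, T))
    rwa [h1] at this
  have key := cone_rect G hF hz (C := S) (a := θ₁) (b := θ₂) (c := 0) (d := T)
    (fun θ hθ' t ht => ⟨hS _, hball θ (by rwa [uIcc_of_le hθ] at hθ') t
      (by rwa [uIcc_of_le hT] at ht)⟩)
  have e1 : (fun θ => S (θ, T)) = fun _ => x' := funext h1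
  have e0 : (fun θ => S (θ, 0)) = fun _ => x := funext h0
  rw [e1, e0, cone_const G F θ₁ θ₂ hz px' hx', cone_const G F θ₁ θ₂ hz px hx] at key
  rw [key]
  ring

/-- reversing the second half of a loop -/
theorem cone_back (G : Geo DM D) (F : Form DM) {z : M} (hz : Pt DM z) {c : ℝ → M}
    (hc : ∀ t, DM.At c t) {T : ℝ} (hT : 0 ≤ T) (hball : ∀ t ∈ Icc T (2 * T), dist z (c t) < D) :
    cone G F z (fun t => c (2 * T - t)) 0 T = -cone G F z c T (2 * T) := by
  have h2 := I2_affine F (Q := fun p : ℝ × ℝ => G.G z (c p.1) p.2) (a := 0) (b := T) (c := 0)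
    (d := 1) (α := -1) (β := 2 * T) (γ := 1) (δ := 0) (fun t ht s hs => by
      rw [uIcc_of_le hT] at ht
      exact at_cone G (p := (-1 * t + 2 * T, 1 * s + 0)) hz (hc _)
        (hball _ ⟨by linarith [ht.2], by linarith [ht.1]⟩))
  have e3 : (fun p : ℝ × ℝ => (fun p : ℝ × ℝ => G.G z (c p.1) p.2)
      (-1 * p.1 + 2 * T, 1 * p.2 + 0)) = fun p : ℝ × ℝ => G.G z (c (2 * T - p.1)) p.2 := by
    funext p
    change G.G z (c (-1 * p.1 + 2 * T)) (1 * p.2 + 0) = G.G z (c (2 * T - p.1)) p.2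
    rw [one_mul, add_zero]
    congr 2
    ring
  have e4 : -1 * (0 : ℝ) + 2 * T = 2 * T := by ring
  have e5 : -1 * T + 2 * T = T := by ring
  rw [e3, e4, e5, one_mul, one_mul, add_zero, add_zero] at h2
  refine Eq.trans h2 ?_
  exact I2_symm_left F _ _ _ _ _

/-- splitting the cone over a closed loop -/
theorem cone_split (G : Geo DM D) (F : Form DM) {z : M} (hz : Pt DM z) {c : ℝ → M}
    (hc : ∀ t, DM.At c t) {a m b : ℝ} (ham : a ≤ m) (hmb : m ≤ b)
    (hball : ∀ t ∈ Icc a b, dist z (c t) < D) :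
    cone G F z c a m + cone G F z c m b = cone G F z c a b := by
  have hab : a ≤ b := ham.trans hmb
  refine I2_add_fst F (fun t ht s _ => ?_) (by rw [uIcc_of_le hab]; exact ⟨ham, hmb⟩)
  rw [uIcc_of_le hab] at ht
  exact at_cone G (p := (t, s)) hz (hc t) (hball t ht)

/-- the cone over a hemisphere: its boundary loop runs out along `S (θ₁, ·)` and back along
`S (θ₂, ·)` -/
theorem hemi_cone (G : Geo DM D) {F : Form DM} (hF : F.d = 0) {z x x' : M}
    (hz : Pt DM z) {S : ℝ × ℝ → M} (hS : ∀ p, DM.At S p) {T θ₁ θ₂ : ℝ}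
    (hT : 0 ≤ T) (hθ : θ₁ ≤ θ₂) (h0 : ∀ θ, S (θ, 0) = x) (h1 : ∀ θ, S (θ, T) = x')
    (hball : ∀ θ ∈ Icc θ₁ θ₂, ∀ t ∈ Icc 0 T, dist z (S (θ, t)) < D)
    {c : ℝ → M} (hc : ∀ t, DM.At c t) (hc1 : ∀ t, c t = S (θ₁, t))
    (hc2 : ∀ t, S (θ₂, t) = c (2 * T - t)) :
    I2 F S θ₁ θ₂ 0 T = cone G F z c 0 (2 * T) := by
  have hball1 : ∀ t ∈ Icc 0 T, dist z (c t) < D := fun t ht => by
    rw [hc1]
    exact hball θ₁ (left_mem_Icc.2 hθ) t ht
  have hball2 : ∀ t ∈ Icc T (2 * T), dist z (c t) < D := fun t ht => by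
    have h2 := hball θ₂ (right_mem_Icc.2 hθ) (2 * T - t) ⟨by linarith [ht.2], by linarith [ht.1]⟩
    rw [hc2] at h2
    have h3 : 2 * T - (2 * T - t) = t := by ring
    rwa [h3] at h2
  have e1 : (fun t => S (θ₁, t)) = c := funext fun t => (hc1 t).symm
  have e2 : (fun t => S (θ₂, t)) = fun t => c (2 * T - t) := funext hc2
  rw [hemi_lune G hF hz hS hT hθ h0 h1 hball, e1, e2, cone_back G F hz hc hT hball2,
    sub_neg_eq_add]
  refine cone_split G F hz hc hT (by linarith) fun t ht => ?_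
  rcases le_total t T with h | h
  · exact hball1 t ⟨ht.1, h⟩
  · exact hball2 t ⟨h, ht.2⟩

/-- **The sphere.** The integral of `F` over the whole sphere `S`, as the difference of the
integrals over the cones with apices in the two open hemispheres, over the loop `c`. -/
theorem sphere_cone (G : Geo DM D) {F : Form DM} (hF : F.d = 0) {z z' x x' : M}
    (hz : Pt DM z) (hz' : Pt DM z') {S : ℝ × ℝ → M}
    (hS : ∀ p, DM.At S p) {T : ℝ}
    (hT : 0 ≤ T) (h0 : ∀ θ, S (θ, 0) = x) (h1 : ∀ θ, S (θ, T) = x')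
    (hper : ∀ t, S (2 * π, t) = S (0, t))
    (hball : ∀ θ ∈ Icc 0 π, ∀ t ∈ Icc 0 T, dist z (S (θ, t)) < D)
    (hball' : ∀ θ ∈ Icc π (2 * π), ∀ t ∈ Icc 0 T, dist z' (S (θ, t)) < D)
    {c : ℝ → M} (hc : ∀ t, DM.At c t) (hc1 : ∀ t, c t = S (0, t))
    (hc2 : ∀ t, S (π, t) = c (2 * T - t)) :
    I2 F S 0 (2 * π) 0 T = cone G F z c 0 (2 * T) - cone G F z' c 0 (2 * T) := by
  have hπ : 0 ≤ π := Real.pi_pos.le
  have h2π : π ≤ 2 * π := by linarith
  have hball1 : ∀ t ∈ Icc 0 T, dist z' (c t) < D := fun t ht => by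
    rw [hc1, ← hper]
    exact hball' (2 * π) (right_mem_Icc.2 h2π) t ht
  have hball2 : ∀ t ∈ Icc T (2 * T), dist z' (c t) < D := fun t ht => by
    have h2 := hball' π (left_mem_Icc.2 h2π) (2 * T - t) ⟨by linarith [ht.2], by linarith [ht.1]⟩
    rw [hc2] at h2
    have h3 : 2 * T - (2 * T - t) = t := by ring
    rwa [h3] at h2
  have hm : π ∈ uIcc 0 (2 * π) := by
    rw [uIcc_of_le (by linarith)]
    exact ⟨hπ, by linarith⟩
  have e2 : (fun t => S (2 * π, t)) = c := by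
    funext t
    rw [hc1, ← hper t]
  have e3 : (fun t => S (π, t)) = fun t => c (2 * T - t) := funext hc2
  have hsplit : cone G F z' c 0 T + cone G F z' c T (2 * T) = cone G F z' c 0 (2 * T) := by
    refine cone_split G F hz' hc hT (by linarith) fun t ht => ?_
    rcases le_total t T with h | h
    · exact hball1 t ⟨ht.1, h⟩
    · exact hball2 t ⟨h, ht.2⟩
  rw [← I2_add_fst F (fun _ _ _ _ => hS _) hm,
    hemi_cone G hF hz hS hT hπ h0 h1 hball hc hc1 hc2,
    hemi_lune G hF hz' hS hT h2π h0 h1 hball', e2, e3, cone_back G F hz' hc hT hball2, ← hsplit]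
  ring

end Vale.Agent.P231.WD
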