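import Vale.Agent.P231.WD.Eval

/-!
# P231, stage 1, block D3: the prism lemma

Stokes' theorem for a closed form on `[a, b] × [c, d] × [0, 1]`.
-/

set_option linter.unusedSectionVars false
set_option linter.unusedVariables false

open MeasureTheory Set Module Filter Topology
open scoped ContDiff Manifold

namespace Vale.Agent.P231.WD

open Vale.Agent.P231.Fm

variable {X Y : Type*} {D : Dif X} {D' : Dif Y}

namespace Pr

/-- value of a form on two vectors -/
noncomputable def ev {E : Type*} [NormedAddCommGroup E] [NormedSpace ℝ E] [FiniteDimensional ℝ E]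
    (w : Lam E) (x y : E) : ℝ := evalForm w ![x, y]

section Ev

variable {E : Type*} [NormedAddCommGroup E] [NormedSpace ℝ E] [FiniteDimensional ℝ E]
variable {F : Type*} [NormedAddCommGroup F] [NormedSpace ℝ F] [FiniteDimensional ℝ F]

theorem ev_eq (w : Lam E) (x y : E) : ev w x y = aug (iprod y (iprod x w)) := by
  rw [ev, evalForm_apply]
  rfl

theorem ev_pull (L : E →L[ℝ] F) (w : Lam F) (x y : E) :
    ev (pull L w) x y = ev w (L x) (L y) := by
  rw [ev_eq, ev_eq, pull_iprod, pull_iprod, aug_pull]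

theorem ev_add_left (w : Lam E) (x x' y : E) : ev w (x + x') y = ev w x y + ev w x' y := by
  rw [ev_eq, ev_eq, ev_eq, iprod_add, map_add, map_add]

theorem ev_smul_left (w : Lam E) (c : ℝ) (x y : E) : ev w (c • x) y = c * ev w x y := by
  rw [ev_eq, ev_eq, iprod_smul, map_smul, map_smul, smul_eq_mul]

theorem ev_swap (w : Lam E) (x y : E) : ev w x y = -ev w y x := by
  rw [ev_eq, ev_eq, iprod_anticomm, map_neg]

theorem ev_add_right (w : Lam E) (x y y' : E) : ev w x (y + y') = ev w x y + ev w x y' := by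
  rw [ev_eq, ev_eq, ev_eq, iprod_add, map_add]

theorem ev_smul_right (w : Lam E) (c : ℝ) (x y : E) : ev w x (c • y) = c * ev w x y := by
  rw [ev_eq, ev_eq, iprod_smul, map_smul, smul_eq_mul]

theorem ev_self (w : Lam E) (x : E) : ev w x x = 0 := by
  rw [ev_eq, iprod_self, map_zero]

theorem ev_zero_left (w : Lam E) (y : E) : ev w 0 y = 0 := by
  have := ev_smul_left w 0 (0 : E) y
  rwa [zero_smul, zero_mul] at this

theorem ev_zero_right (w : Lam E) (x : E) : ev w x 0 = 0 := by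
  have := ev_smul_right w 0 x (0 : E)
  rwa [zero_smul, zero_mul] at this

theorem ev_add_form (v w : Lam E) (x y : E) : ev (v + w) x y = ev v x y + ev w x y := by
  rw [ev_eq, ev_eq, ev_eq, map_add, map_add, map_add]

theorem ev_sub_form (v w : Lam E) (x y : E) : ev (v - w) x y = ev v x y - ev w x y := by
  rw [ev_eq, ev_eq, ev_eq, map_sub, map_sub, map_sub]

theorem ev_smul_form (c : ℝ) (w : Lam E) (x y : E) : ev (c • w) x y = c * ev w x y := by
  rw [ev_eq, ev_eq, map_smul, map_smul, map_smul, smul_eq_mul]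

/-- `ev` as a continuous linear map of the form -/
noncomputable def evL (x y : E) : Lam E →L[ℝ] ℝ := evalL ![x, y]

theorem evL_apply (x y : E) (w : Lam E) : evL x y w = ev w x y := rfl

/-- value on one vector -/
noncomputable def ev1 (w : Lam E) (x : E) : ℝ := aug (iprod x w)

/-- `ev1` as a continuous linear map -/
noncomputable def ev1L (x : E) : Lam E →L[ℝ] ℝ :=
  LinearMap.toContinuousLinearMap (aug.toLinearMap ∘ₗ iprod x)

theorem ev1L_apply (x : E) (w : Lam E) : ev1L x w = ev1 w x := rfl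

/-- Cartan formula for constant vector fields -/
theorem ev_extd {w : E → Lam E} {p : E} (hw : DifferentiableAt ℝ w p) (x y : E) :
    ev (extd w p) x y = ev1 (fderiv ℝ w p x) y - ev1 (fderiv ℝ w p y) x := by
  have h1 := iprod_extd hw x
  have h2 : DifferentiableAt ℝ (fun q => iprod x (w q)) p :=
    (iprodL x).differentiableAt.comp p hw
  have h3 := iprod_extd h2 y
  have h4 : fderiv ℝ (fun q => iprod x (w q)) p = iprodL x ∘L fderiv ℝ w p :=
    ((iprodL x).hasFDerivAt.comp p hw.hasFDerivAt).fderiv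
  rw [h4] at h3
  have h5 : aug (extd (fun q => iprod y (iprod x (w q))) p) = 0 := aug_dLin _
  have h6 := congrArg (aug (E := E)) h3
  rw [map_add, h5, add_zero] at h6
  rw [ev_eq, eq_sub_of_add_eq h1, map_sub, map_sub, h6]
  rfl

end Ev

/-- change of variables, infinitesimally -/
theorem ev2_comp' (F : Form D) {E : Type} [NormedAddCommGroup E] [NormedSpace ℝ E]
    [FiniteDimensional ℝ E] {u : E → X} {g : ℝ × ℝ → E} {p : ℝ × ℝ} (h : D.At u (g p))
    (hg : Sm g p) : ev2 F (u ∘ g) p =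
      ev (F.val u (g p)) (fderiv ℝ g p (1, 0)) (fderiv ℝ g p (0, 1)) :=
  ev2_comp F h hg hg.differentiableAt.hasFDerivAt

/-- continuity of the integrand -/
theorem continuousOn_ev2 (F : Form D) {u : ℝ × ℝ → X} {S : Set (ℝ × ℝ)}
    (h : ∀ p ∈ S, D.At u p) : ContinuousOn (ev2 F u) S := fun p hp =>
  (ev2_continuousAt F (h p hp)).continuousWithinAt

end Pr

open Pr

/-- the form vanishes on plots which factor through a curve -/
theorem ev2_curve (F : Form D) {v : ℝ → X} {g : ℝ × ℝ → ℝ} {p : ℝ × ℝ} (h : D.At v (g p))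
    (hg : Sm g p) : ev2 F (v ∘ g) p = 0 := by
  rw [ev2_comp' F h hg]
  have key : ∀ x y : ℝ, ev (F.val v (g p)) x y = 0 := by
    intro x y
    have h1 : x = x • (1 : ℝ) := by simp
    have h2 : y = y • (1 : ℝ) := by simp
    rw [h1, h2, ev_smul_left, ev_smul_right, ev_self, mul_zero, mul_zero]
  exact key _ _

/-- the form vanishes at a point near which the plot is independent of the second coordinate -/
theorem ev2_eq_zero_of_snd (F : Form D) {u : ℝ × ℝ → X} {p : ℝ × ℝ} (h : D.At u p)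
    (hu : ∀ᶠ q in 𝓝 p, u q = u (q.1, p.2)) : ev2 F u p = 0 := by
  have h1 : Sm (fun t : ℝ => (t, p.2)) p.1 :=
    Sm.of_contDiff (contDiff_id.prodMk contDiff_const) _
  have h2 : D.At (u ∘ fun t : ℝ => (t, p.2)) p.1 := D.comp h h1
  have h3 : ev2 F u p = ev2 F (fun q => (u ∘ fun t : ℝ => (t, p.2)) q.1) p := ev2_congr F h hu
  exact h3.trans (ev2_fst F h2)

/-- the form vanishes at a point near which the plot is independent of the first coordinate -/
theorem ev2_eq_zero_of_fst (F : Form D) {u : ℝ × ℝ → X} {p : ℝ × ℝ} (h : D.At u p)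
    (hu : ∀ᶠ q in 𝓝 p, u q = u (p.1, q.2)) : ev2 F u p = 0 := by
  have h1 : Sm (fun t : ℝ => (p.1, t)) p.2 :=
    Sm.of_contDiff (contDiff_const.prodMk contDiff_id) _
  have h2 : D.At (u ∘ fun t : ℝ => (p.1, t)) p.2 := D.comp h h1
  have h3 : ev2 F u p = ev2 F (fun q => (u ∘ fun t : ℝ => (p.1, t)) q.2) p := ev2_congr F h hu
  exact h3.trans (ev2_snd F h2)

/-- separate changes of variables -/
theorem ev2_prodMap (F : Form D) {u : ℝ × ℝ → X} {f g : ℝ → ℝ} {p : ℝ × ℝ}
    (h : D.At u (f p.1, g p.2)) (hf : Sm f p.1) (hg : Sm g p.2) :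
    ev2 F (fun q => u (f q.1, g q.2)) p = deriv f p.1 * deriv g p.2 * ev2 F u (f p.1, g p.2) := by
  have h1 : Sm (fun q : ℝ × ℝ => (f q.1, g q.2)) p :=
    (Sm.comp (f := f) (g := Prod.fst) (x := p) hf (Sm.of_contDiff contDiff_fst _)).prodMk
      (Sm.comp (f := g) (g := Prod.snd) (x := p) hg (Sm.of_contDiff contDiff_snd _))
  have h2 : HasFDerivAt (fun q : ℝ × ℝ => (f q.1, g q.2))
      ((fderiv ℝ f p.1).prodMap (fderiv ℝ g p.2)) p :=
    hf.differentiableAt.hasFDerivAt.prodMap p hg.differentiableAt.hasFDerivAt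
  have h3 : ev2 F (u ∘ fun q : ℝ × ℝ => (f q.1, g q.2)) p = _ :=
    ev2_comp' F (u := u) (g := fun q : ℝ × ℝ => (f q.1, g q.2)) h h1
  refine Eq.trans h3 ?_
  rw [h2.fderiv]
  have e1 : ((fderiv ℝ f p.1).prodMap (fderiv ℝ g p.2)) ((1, 0) : ℝ × ℝ) =
      deriv f p.1 • ((1, 0) : ℝ × ℝ) := by
    ext <;> simp
  have e2 : ((fderiv ℝ f p.1).prodMap (fderiv ℝ g p.2)) ((0, 1) : ℝ × ℝ) =
      deriv g p.2 • ((0, 1) : ℝ × ℝ) := by
    ext <;> simp
  rw [e1, e2, ev_smul_left, ev_smul_right, mul_assoc]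
  rfl

/-! ### double integrals of continuous functions -/

theorem integrable_rect {f : ℝ × ℝ → ℝ} {a b c d : ℝ}
    (hf : ContinuousOn f (uIcc a b ×ˢ uIcc c d)) :
    Integrable f ((volume.restrict (uIoc a b)).prod (volume.restrict (uIoc c d))) := by
  rw [Measure.prod_restrict]
  exact (hf.integrableOn_compact (isCompact_uIcc.prod isCompact_uIcc)).mono_set
    (prod_mono uIoc_subset_uIcc uIoc_subset_uIcc)

theorem intervalIntegrable_left' {f : ℝ × ℝ → ℝ} {a b c d : ℝ}
    (hf : ContinuousOn f (uIcc a b ×ˢ uIcc c d)) :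
    IntervalIntegrable (fun t => ∫ s in c..d, f (t, s)) volume a b := by
  rw [intervalIntegrable_iff]
  have h := (integrable_rect hf).integral_prod_left
  have h1 : (fun t => ∫ s in c..d, f (t, s)) =
      (if c ≤ d then (1 : ℝ) else -1) • fun t => ∫ s in uIoc c d, f (t, s) := by
    funext t
    exact intervalIntegral.intervalIntegral_eq_integral_uIoc _ _ _ _
  rw [h1]
  exact Integrable.smul _ h

theorem intervalIntegrable_slice {f : ℝ × ℝ → ℝ} {a b c d : ℝ}
    (hf : ContinuousOn f (uIcc a b ×ˢ uIcc c d)) {t : ℝ} (ht : t ∈ uIcc a b) :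
    IntervalIntegrable (fun s => f (t, s)) volume c d :=
  (hf.comp (Continuous.prodMk_right t).continuousOn fun s hs => ⟨ht, hs⟩).intervalIntegrable

theorem int2_sub {f g : ℝ × ℝ → ℝ} {a b c d : ℝ}
    (hf : ContinuousOn f (uIcc a b ×ˢ uIcc c d)) (hg : ContinuousOn g (uIcc a b ×ˢ uIcc c d)) :
    (∫ t in a..b, ∫ s in c..d, f (t, s)) - (∫ t in a..b, ∫ s in c..d, g (t, s)) =
      ∫ t in a..b, ∫ s in c..d, (f (t, s) - g (t, s)) := by
  rw [← intervalIntegral.integral_sub (intervalIntegrable_left' hf) (intervalIntegrable_left' hg)]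
  refine intervalIntegral.integral_congr fun t ht => ?_
  rw [intervalIntegral.integral_sub (intervalIntegrable_slice hf ht)
    (intervalIntegrable_slice hg ht)]

theorem int2_swap {f : ℝ × ℝ → ℝ} {a b c d : ℝ}
    (hf : ContinuousOn f (uIcc a b ×ˢ uIcc c d)) :
    (∫ t in a..b, ∫ s in c..d, f (t, s)) = ∫ s in c..d, ∫ t in a..b, f (t, s) :=
  intervalIntegral_intervalIntegral_swap (F := fun t s => f (t, s)) (by
    have h := integrable_rect hf
    rw [Measure.prod_restrict] at h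
    exact h)

/-- exchanging the coordinates changes the sign -/
theorem I2_swap (F : Form D) {u : ℝ × ℝ → X} {a b c d : ℝ}
    (h : ∀ p ∈ uIcc a b ×ˢ uIcc c d, D.At u p) :
    I2 F (fun q => u (q.2, q.1)) c d a b = -I2 F u a b c d := by
  rw [I2, I2, int2_swap (continuousOn_ev2 F h), ← intervalIntegral.integral_neg]
  refine intervalIntegral.integral_congr fun s hs => ?_
  rw [← intervalIntegral.integral_neg]
  refine intervalIntegral.integral_congr fun t ht => ?_
  exact ev2_swap F (p := (s, t)) (h (t, s) ⟨ht, hs⟩)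

theorem I2_symm_left (F : Form D) (u : ℝ × ℝ → X) (a b c d : ℝ) :
    I2 F u b a c d = -I2 F u a b c d := intervalIntegral.integral_symm _ _

theorem I2_symm_right (F : Form D) (u : ℝ × ℝ → X) (a b c d : ℝ) :
    I2 F u a b d c = -I2 F u a b c d := by
  rw [I2, I2, ← intervalIntegral.integral_neg]
  refine intervalIntegral.integral_congr fun t _ => ?_
  exact intervalIntegral.integral_symm _ _

/-! ### the prism -/

section Prism

variable (F : Form D)

/-- the prism lemma: Stokes' theorem for a closed form on `[a, b] × [c, d] × [0, 1]` -/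
theorem prism (hF : F.d = 0) {U : Set (ℝ × ℝ)} (hU : IsOpen U) {a b c d : ℝ}
    (hsub : uIcc a b ×ˢ uIcc c d ⊆ U) {P : (ℝ × ℝ) × ℝ → X}
    (hP : ∀ p ∈ U, ∀ r, D.At P (p, r)) :
    I2 F (fun p => P (p, 1)) a b c d - I2 F (fun p => P (p, 0)) a b c d =
      (I2 F (fun q => P ((q.1, d), q.2)) a b 0 1 - I2 F (fun q => P ((q.1, c), q.2)) a b 0 1) -
      (I2 F (fun q => P ((b, q.1), q.2)) c d 0 1 - I2 F (fun q => P ((a, q.1), q.2)) c d 0 1) := by
  -- the form on the box
  set w : (ℝ × ℝ) × ℝ → Lam ((ℝ × ℝ) × ℝ) := F.val P with hw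
  have hwc : ContDiffOn ℝ ∞ w (U ×ˢ univ) := fun p hp =>
    (F.smooth (hP p.1 hp.1 p.2)).contDiffWithinAt
  have hwd : ∀ p ∈ U, ∀ r, extd w (p, r) = 0 := fun p hp r => by
    rw [hw, ← F.d_val (hP p hp r), hF]
    rfl
  have h1le : (1 : WithTop ℕ∞) ≤ ∞ := WithTop.coe_le_coe.2 le_top
  have hk : ∀ p ∈ U, at0 (w (p, 1)) - at0 (w (p, 0)) = extd (kop w) p := fun p hp => by
    rw [kop_homotopy hU (hwc.of_le h1le) hp]
    have : kop (extd w) p = 0 := by
      rw [kop]
      have h2 : ∀ r, at1 (extd w (p, r)) = 0 := fun r => by rw [hwd p hp r, map_zero]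
      simp only [h2, intervalIntegral.integral_zero]
    rw [this, zero_add]
  have hkc : ContDiffOn ℝ ∞ (kop w) U := contDiffOn_kop (n := ⊤) hU hwc
  have hkd : ∀ p ∈ U, DifferentiableAt ℝ (kop w) p := fun p hp =>
    (hkc.differentiableOn (by simp)).differentiableAt (hU.mem_nhds hp)
  -- values of the slices
  have hs : ∀ p ∈ U, ∀ r, ev (at0 (w (p, r))) (1, 0) (0, 1) = ev2 F (fun p => P (p, r)) p := by
    intro p hp r
    have h2 : Sm (fun q : ℝ × ℝ => (q, r)) p :=
      Sm.of_contDiff (contDiff_id.prodMk contDiff_const) _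
    have h3 := ev2_comp' F (u := P) (g := fun q : ℝ × ℝ => (q, r)) (p := p) (hP p hp r) h2
    have h4 : fderiv ℝ (fun q : ℝ × ℝ => (q, r)) p = ContinuousLinearMap.inl ℝ (ℝ × ℝ) ℝ :=
      (hasFDerivAt_prodMk_left p r).fderiv
    rw [h4, ← ev_pull] at h3
    exact h3.symm
  have hc : ∀ p ∈ U, Continuous fun r => at1 (w (p, r)) := fun p hp =>
    (at1 (E := ℝ × ℝ)).continuous.comp (hwc.continuousOn.comp_continuous
      (Continuous.prodMk_right _) fun t => ⟨hp, mem_univ _⟩)
  -- the components of `kop w`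
  have hk1 : ∀ p ∈ U, ev1 (kop w p) (1, 0) =
      -∫ r in (0 : ℝ)..1, ev2 F (fun q => P ((q.1, p.2), q.2)) (p.1, r) := by
    intro p hp
    rw [← ev1L_apply, kop, ← ContinuousLinearMap.intervalIntegral_comp_comm _
      ((hc p hp).intervalIntegrable _ _), ← intervalIntegral.integral_neg]
    refine intervalIntegral.integral_congr fun r _ => ?_
    have h2 : Sm (fun q : ℝ × ℝ => ((q.1, p.2), q.2)) (p.1, r) :=
      Sm.of_contDiff ((contDiff_fst.prodMk contDiff_const).prodMk contDiff_snd) _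
    have h3 := ev2_comp' F (u := P) (g := fun q : ℝ × ℝ => ((q.1, p.2), q.2)) (p := (p.1, r))
      (hP p hp r) h2
    have h4 : HasFDerivAt (fun q : ℝ × ℝ => ((q.1, p.2), q.2))
        (((ContinuousLinearMap.fst ℝ ℝ ℝ).prod 0).prod (ContinuousLinearMap.snd ℝ ℝ ℝ)) (p.1, r) :=
      (hasFDerivAt_fst.prodMk (hasFDerivAt_const _ _)).prodMk hasFDerivAt_snd
    have h5 : ev2 F (fun q => P ((q.1, p.2), q.2)) (p.1, r) = ev (w (p, r)) ((1, 0), 0)
        ((0, 0), 1) := by
      refine Eq.trans h3 ?_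
      rw [h4.fderiv]
      rfl
    rw [h5, ev1L_apply, ev1, at1_apply, at0_apply, pull_iprod, aug_pull, ← ev_eq, ev_swap]
    rfl
  have hk2 : ∀ p ∈ U, ev1 (kop w p) (0, 1) =
      -∫ r in (0 : ℝ)..1, ev2 F (fun q => P ((p.1, q.1), q.2)) (p.2, r) := by
    intro p hp
    rw [← ev1L_apply, kop, ← ContinuousLinearMap.intervalIntegral_comp_comm _
      ((hc p hp).intervalIntegrable _ _), ← intervalIntegral.integral_neg]
    refine intervalIntegral.integral_congr fun r _ => ?_
    have h2 : Sm (fun q : ℝ × ℝ => ((p.1, q.1), q.2)) (p.2, r) :=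
      Sm.of_contDiff ((contDiff_const.prodMk contDiff_fst).prodMk contDiff_snd) _
    have h3 := ev2_comp' F (u := P) (g := fun q : ℝ × ℝ => ((p.1, q.1), q.2)) (p := (p.2, r))
      (hP p hp r) h2
    have h4 : HasFDerivAt (fun q : ℝ × ℝ => ((p.1, q.1), q.2))
        (((0 : ℝ × ℝ →L[ℝ] ℝ).prod (ContinuousLinearMap.fst ℝ ℝ ℝ)).prod
          (ContinuousLinearMap.snd ℝ ℝ ℝ)) (p.2, r) :=
      ((hasFDerivAt_const _ _).prodMk hasFDerivAt_fst).prodMk hasFDerivAt_snd
    have h5 : ev2 F (fun q => P ((p.1, q.1), q.2)) (p.2, r) = ev (w (p, r)) ((0, 1), 0)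
        ((0, 0), 1) := by
      refine Eq.trans h3 ?_
      rw [h4.fderiv]
      rfl
    rw [h5, ev1L_apply, ev1, at1_apply, at0_apply, pull_iprod, aug_pull, ← ev_eq, ev_swap]
    rfl
  have hfd : ContinuousOn (fderiv ℝ (kop w)) (uIcc a b ×ˢ uIcc c d) :=
    (hkc.continuousOn_fderiv_of_isOpen hU (by simp)).mono hsub
  have c1 : ContinuousOn (fun p => (ev1L (0, 1) ∘L fderiv ℝ (kop w) p) (1, 0))
      (uIcc a b ×ˢ uIcc c d) :=
    (continuousOn_const.clm_comp hfd).clm_apply continuousOn_const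
  have c2 : ContinuousOn (fun p => (ev1L (1, 0) ∘L fderiv ℝ (kop w) p) (0, 1))
      (uIcc a b ×ˢ uIcc c d) :=
    (continuousOn_const.clm_comp hfd).clm_apply continuousOn_const
  -- Green's formula
  have key := integral2_divergence_prod_of_hasFDerivAt_off_countable
    (fun p => ev1 (kop w p) (0, 1)) (fun p => -ev1 (kop w p) (1, 0))
    (fun p => ev1L (0, 1) ∘L fderiv ℝ (kop w) p) (fun p => -(ev1L (1, 0) ∘L fderiv ℝ (kop w) p))
    a c b d ∅ countable_empty
    (fun p hp => (((ev1L (E := ℝ × ℝ) (0, 1)).continuous.continuousAt.comp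
      (hkd p (hsub hp)).continuousAt) : ContinuousAt _ p).continuousWithinAt)
    (fun p hp => (((ev1L (E := ℝ × ℝ) (1, 0)).continuous.continuousAt.comp
      (hkd p (hsub hp)).continuousAt) : ContinuousAt _ p).neg.continuousWithinAt)
    (fun p hp => (ev1L (E := ℝ × ℝ) (0, 1)).hasFDerivAt.comp p (hkd p (hsub
      ⟨Ioo_subset_Icc_self hp.1.1, Ioo_subset_Icc_self hp.1.2⟩)).hasFDerivAt)
    (fun p hp => ((ev1L (E := ℝ × ℝ) (1, 0)).hasFDerivAt.comp p (hkd p (hsub
      ⟨Ioo_subset_Icc_self hp.1.1, Ioo_subset_Icc_self hp.1.2⟩)).hasFDerivAt).neg)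
    ((c1.add c2.neg).integrableOn_compact (isCompact_uIcc.prod isCompact_uIcc))
  have a1 : ∀ p ∈ uIcc a b ×ˢ uIcc c d, D.At (fun p => P (p, (1 : ℝ))) p := fun p hp =>
    D.comp (u := P) (g := fun q : ℝ × ℝ => (q, (1 : ℝ))) (x := p) (hP p (hsub hp) 1)
      (Sm.of_contDiff (contDiff_id.prodMk contDiff_const) _)
  have a0 : ∀ p ∈ uIcc a b ×ˢ uIcc c d, D.At (fun p => P (p, (0 : ℝ))) p := fun p hp =>
    D.comp (u := P) (g := fun q : ℝ × ℝ => (q, (0 : ℝ))) (x := p) (hP p (hsub hp) 0)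
      (Sm.of_contDiff (contDiff_id.prodMk contDiff_const) _)
  have e1 : I2 F (fun p => P (p, 1)) a b c d - I2 F (fun p => P (p, 0)) a b c d =
      ∫ x in a..b, ∫ y in c..d, (ev1L (0, 1) ∘L fderiv ℝ (kop w) (x, y)) (1, 0) +
        (-(ev1L (1, 0) ∘L fderiv ℝ (kop w) (x, y))) (0, 1) := by
    rw [I2, I2, int2_sub (continuousOn_ev2 F a1) (continuousOn_ev2 F a0)]
    refine intervalIntegral.integral_congr fun x hx =>
      intervalIntegral.integral_congr fun y hy => ?_
    have hp : (x, y) ∈ U := hsub ⟨hx, hy⟩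
    rw [← hs _ hp 1, ← hs _ hp 0, ← ev_sub_form, hk _ hp, ev_extd (hkd _ hp)]
    simp only [neg_apply, ContinuousLinearMap.comp_apply, ev1L_apply]
    ring
  rw [e1, key]
  simp only [I2, intervalIntegral.integral_neg]
  rw [intervalIntegral.integral_congr (g := fun x => -∫ r in (0 : ℝ)..1,
      ev2 F (fun q => P ((q.1, d), q.2)) (x, r)) fun x hx => hk1 (x, d) (hsub ⟨hx, right_mem_uIcc⟩),
    intervalIntegral.integral_congr (g := fun x => -∫ r in (0 : ℝ)..1,
      ev2 F (fun q => P ((q.1, c), q.2)) (x, r)) fun x hx => hk1 (x, c) (hsub ⟨hx, left_mem_uIcc⟩),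
    intervalIntegral.integral_congr (g := fun y => -∫ r in (0 : ℝ)..1,
      ev2 F (fun q => P ((b, q.1), q.2)) (y, r)) fun y hy => hk2 (b, y) (hsub ⟨right_mem_uIcc, hy⟩),
    intervalIntegral.integral_congr (g := fun y => -∫ r in (0 : ℝ)..1,
      ev2 F (fun q => P ((a, q.1), q.2)) (y, r)) fun y hy => hk2 (a, y) (hsub ⟨left_mem_uIcc, hy⟩)]
  simp only [intervalIntegral.integral_neg]
  ring

end Prism

end Vale.Agent.P231.WD
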